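import Vale.Agent.P096.Three.Index

/-!
P096, stabilisation: an element of `amb M` that commutes with all sites comes from `M`.
-/

open scoped InnerProductSpace Matrix
open Vale.Agent.P096.Cent (siteOp leftMat rightMat siteBasis)

namespace Vale.Agent.P096.Three.Amb

variable {H : Type} [NormedAddCommGroup H] [InnerProductSpace ℂ H] [CompleteSpace H]

/-- The first factor of a state. -/
def fstBit : Fin 4 → Fin 2 := ![0, 0, 1, 1]

/-- The second factor of a state. -/
def sndBit : Fin 4 → Fin 2 := ![0, 1, 0, 1]

theorem single_eq_left_right (p q : Fin 4) :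
    Matrix.single p q (1 : ℂ) = leftMat (Matrix.single (fstBit p) (fstBit q) 1)
      * rightMat (Matrix.single (sndBit p) (sndBit q) 1) := by
  ext i j
  fin_cases p <;> fin_cases q <;> fin_cases i <;> fin_cases j <;>
    simp [Cent.leftMat, Cent.rightMat, fstBit, sndBit, Matrix.mul_apply, Fin.sum_univ_four]

/-- What commutes with both factors of a site commutes with every matrix at it. -/
theorem commute_siteOp {x : AmbH H →L[ℂ] AmbH H} {n : ℕ}
    (hl : ∀ a, x * lsite n a = lsite n a * x) (hr : ∀ b, x * rsite n b = rsite n b * x)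
    (A : Matrix (Fin 4) (Fin 4) ℂ) : x * siteOp n A = siteOp n A * x := by
  have hw : siteW n 0 ^ 2 + siteW n 1 ^ 2 = 1 := Cent.famW_sq _
  set S := siteBasis (siteW n) with hS
  have hSS : S * S = 1 := Cent.siteBasis_sq hw
  suffices h : ∀ X, x * siteOp n (S * X * S) = siteOp n (S * X * S) * x by
    have h2 := h (S * A * S)
    rwa [show S * (S * A * S) * S = A by
      simp only [← Matrix.mul_assoc]
      rw [hSS, Matrix.one_mul, Matrix.mul_assoc, hSS, Matrix.mul_one]] at h2
  intro X
  induction X using Matrix.induction_on' with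
  | h_zero => simp [Cent.siteOp_zero]
  | h_add P Q hP hQ =>
    rw [Matrix.mul_add, Matrix.add_mul, Cent.siteOp_add, mul_add, add_mul, hP, hQ]
  | h_std_basis p q c =>
    have e : siteOp (H := H) n (S * Matrix.single p q c * S)
        = c • (lsite n (Matrix.single (fstBit p) (fstBit q) 1)
          * rsite n (Matrix.single (sndBit p) (sndBit q) 1)) := by
      show _ = c • (Cent.leftSite _ n _ * Cent.rightSite _ n _)
      rw [Cent.leftSite, Cent.rightSite, Cent.siteOp_mul, Cent.conj_mul hw,
        ← single_eq_left_right, ← Cent.siteOp_smul,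
        show Matrix.single p q c = c • Matrix.single p q (1 : ℂ) by simp [Matrix.smul_single]]
      simp only [Matrix.mul_smul, Matrix.smul_mul, ← hS]
    rw [e, mul_smul_comm, smul_mul_assoc, ← mul_assoc, hl, mul_assoc, hr, mul_assoc]

theorem siteOp_single_zero (n : ℕ) (k : Fin 4) {i : Idx} (hi : i n = 0) (v : H) :
    siteOp n (Matrix.single k 0 (1 : ℂ)) (lp.single 2 i v) = lp.single 2 (i.update n k) v := by
  rw [Cent.siteOp_single, hi, Finset.sum_eq_single k
    (fun l _ hl => by rw [Matrix.single_apply, if_neg (fun h => hl h.1.symm), zero_smul]) (by simp)]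
  simp

/-- An element of `amb M` that commutes with all left sites comes from `M`. -/
theorem exists_of_commute_sites (M : VonNeumannAlgebra H) {x : AmbH H →L[ℂ] AmbH H}
    (hx : x ∈ amb M) (hl : ∀ n a, x * lsite n a = lsite n a * x) : ∃ x₀ ∈ M, x = ten x₀ := by
  have hx' : x ∈ StarSubalgebra.centralizer ℂ _ := hx
  have hgen := (StarSubalgebra.mem_centralizer_iff ℂ).1 hx'
  have hall : ∀ n A, x * siteOp n A = siteOp n A * x := fun n A =>
    commute_siteOp (hl n) (fun b => ((hgen _ (Or.inr ⟨(n, b), rfl⟩)).1).symm) A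
  have hzero : ∀ (v : H) (i : Idx), i ≠ 0 → x (lp.single 2 0 v) i = 0 := by
    intro v i hi
    obtain ⟨n, hn⟩ : ∃ n, i n ≠ 0 := by
      by_contra h
      exact hi (Finsupp.ext fun n => not_not.1 fun hn => h ⟨n, hn⟩)
    have e : siteOp n (Matrix.single 0 0 (1 : ℂ)) (lp.single 2 0 v) = lp.single 2 0 v := by
      rw [siteOp_single_zero n 0 rfl v]; simp
    have h2 := congrArg (fun T : AmbH H →L[ℂ] AmbH H => (T (lp.single 2 0 v)) i)
      (hall n (Matrix.single 0 0 1))
    simp only [mul_apply_eq_comp, e, Cent.siteOp_apply] at h2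
    rw [h2]
    refine Finset.sum_eq_zero fun k _ => ?_
    rw [Matrix.single_apply, if_neg (fun h => hn h.1.symm), zero_smul]
  set x₀ : H →L[ℂ] H := (lp.evalCLM ℂ (fun _ : Idx => H) 2 0).comp (x.comp put0) with hx₀
  have h0 : ∀ v, x (lp.single 2 0 v) = lp.single 2 0 (x₀ v) := fun v => lp.ext (funext fun i => by
    by_cases hi : i = 0
    · subst hi; rw [lp.single_apply_self]; rfl
    · rw [hzero v i hi, lp.single_apply_ne 2 0 _ hi])
  have hs : ∀ (i : Idx) (v : H), x (lp.single 2 i v) = lp.single 2 i (x₀ v) := by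
    intro i
    induction i using Finsupp.induction with
    | zero => exact h0
    | single_add n k f hf _ ih =>
      intro v
      have e : Finsupp.single n k + f = f.update n k := by
        refine Finsupp.ext fun m => ?_
        rw [Finsupp.add_apply, Finsupp.update_apply]
        by_cases hm : m = n
        · subst hm; simp [Finsupp.notMem_support_iff.1 hf]
        · simp [hm]
      have hn : f n = 0 := Finsupp.notMem_support_iff.1 hf
      rw [e, ← siteOp_single_zero n k hn, ← mul_apply_eq_comp, hall, mul_apply_eq_comp, ih,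
        siteOp_single_zero n k hn]
  have heq : x = ten x₀ := by
    refine ContinuousLinearMap.ext fun f => ?_
    have hsum := lp.hasSum_single (ENNReal.ofNat_ne_top (n := 2)) f
    refine (hsum.map x x.continuous).unique ?_
    refine ((hsum.map (ten x₀) (ten x₀).continuous).congr_fun fun i => ?_)
    show x (lp.single 2 i (f i)) = ten x₀ (lp.single 2 i (f i))
    rw [hs, Cent.ten_single]
  refine ⟨x₀, ?_, heq⟩
  rw [← VonNeumannAlgebra.commutant_commutant M, VonNeumannAlgebra.mem_commutant_iff]
  intro y hy
  refine ContinuousLinearMap.ext fun u => ?_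
  have h := (hgen _ (Or.inl ⟨y, hy, rfl⟩)).1
  rw [heq, Cent.ten_mul, Cent.ten_mul] at h
  have h2 := congrArg (fun T : AmbH H →L[ℂ] AmbH H => (T (lp.single 2 0 u)) 0) h
  simpa [Cent.ten_apply, lp.single_apply] using h2

end Vale.Agent.P096.Three.Amb
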