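import Vale.Agent.P096.Three.Amb.Units
import Vale.Agent.P096.Three.Amb.CommuteSites
import Vale.Agent.P096.Three.Spec
import Vale.Agent.P096.Near
import Vale.Agent.P096.Full.Reduce.Group

/-!
P096, stabilisation: the finite groups of the two sides of the sites, the operators commuting
with the sites, the centre, separability and closeness.
-/

open scoped InnerProductSpace Matrix
open Filter Topology
open TopologicalSpace (SeparableSpace)
open Vale.Agent.P096.Full.Reduce (Groups IsMean)

namespace Vale.Agent.P096.Three.Amb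

open Cent

/-! ### Separability -/

/-- The stabilised space of a separable space is separable. -/
theorem separable : ∀ (H : Type) [NormedAddCommGroup H] [SeparableSpace H],
    SeparableSpace (AmbH H) := by
  intro H _ _
  obtain ⟨D, hDc, hDd⟩ := TopologicalSpace.exists_countable_dense H
  have : Countable D := hDc.to_subtype
  let mix : (F : Finset Idx) → (F → H) → AmbH H :=
    fun F g => ∑ i : F, lp.single 2 (i : Idx) (g i)
  let T : Set (AmbH H) := ⋃ F : Finset Idx, Set.range fun g : F → D => mix F fun i => (g i : H)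
  have hT : T.Countable := Set.countable_iUnion fun F => Set.countable_range _
  refine ⟨⟨T, hT, fun f => ?_⟩⟩
  refine isClosed_closure.mem_of_tendsto (lp.hasSum_single (by simp) f)
    (Eventually.of_forall fun F => ?_)
  have hc : Continuous (mix F) := continuous_finsetSum _ fun i _ =>
    (lp.isometry_single (p := 2) (E := fun _ : Idx => H) (i : Idx)).continuous.comp
      (continuous_apply i)
  have hd : DenseRange fun g : F → D => fun i => (g i : H) :=
    DenseRange.piMap fun _ => hDd.denseRange_val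
  have := map_mem_closure hc (hd fun i => f i) (t := T) (by
    rintro _ ⟨g, rfl⟩
    exact Set.mem_iUnion.2 ⟨F, g, rfl⟩)
  simpa only [mix, Finset.sum_coe_sort F fun i => lp.single 2 i (f i)] using this

/-! ### Signed monomial matrices -/

/-- A sign. -/
def sgn : Bool → ℂ := fun b => cond b (-1) 1

theorem sgn_xor (a b : Bool) : sgn (xor a b) = sgn a * sgn b := by
  cases a <;> cases b <;> simp [sgn]

theorem star_sgn (a : Bool) : starRingEnd ℂ (sgn a) = sgn a := by cases a <;> simp [sgn]

/-- A signed monomial two by two matrix. -/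
def sigMat : Bool × Bool × Bool → Matrix (Fin 2) (Fin 2) ℂ
  | (false, a, b) => !![sgn a, 0; 0, sgn b]
  | (true, a, b) => !![0, sgn a; sgn b, 0]

/-- Their product. -/
def sigMul : Bool × Bool × Bool → Bool × Bool × Bool → Bool × Bool × Bool
  | (false, a, b), (s, c, d) => (s, xor a c, xor b d)
  | (true, a, b), (s, c, d) => (!s, xor a d, xor b c)

/-- Their adjoint. -/
def sigStar : Bool × Bool × Bool → Bool × Bool × Bool
  | (false, a, b) => (false, a, b)
  | (true, a, b) => (true, b, a)

theorem sigMat_mul (g h : Bool × Bool × Bool) : sigMat g * sigMat h = sigMat (sigMul g h) := by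
  obtain ⟨_ | _, a, b⟩ := g <;> obtain ⟨_ | _, c, d⟩ := h <;>
    ext i j <;> fin_cases i <;> fin_cases j <;>
    simp [sigMat, sigMul, sgn_xor, Matrix.mul_apply, Fin.sum_univ_two]

theorem sigMat_star (g : Bool × Bool × Bool) : (sigMat g)ᴴ = sigMat (sigStar g) := by
  obtain ⟨_ | _, a, b⟩ := g <;>
    ext i j <;> fin_cases i <;> fin_cases j <;>
    simp [sigMat, sigStar, star_sgn, Matrix.conjTranspose_apply]

theorem sigMat_one : sigMat (false, false, false) = 1 := by
  ext i j
  fin_cases i <;> fin_cases j <;> simp [sigMat, sgn]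

theorem sigMat_unitary (g : Bool × Bool × Bool) :
    (sigMat g)ᴴ * sigMat g = 1 ∧ sigMat g * (sigMat g)ᴴ = 1 := by
  obtain ⟨_ | _, _ | _, _ | _⟩ := g <;> constructor <;>
    ext i j <;> fin_cases i <;> fin_cases j <;>
    simp [sigMat, sgn, Matrix.mul_apply, Fin.sum_univ_two, Matrix.conjTranspose_apply]

theorem sigMat_span (a : Matrix (Fin 2) (Fin 2) ℂ) :
    a = ((a 0 0 + a 1 1) / 2) • sigMat (false, false, false) +
      ((a 0 0 - a 1 1) / 2) • sigMat (false, false, true) +
      ((a 0 1 + a 1 0) / 2) • sigMat (true, false, false) +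
      ((a 0 1 - a 1 0) / 2) • sigMat (true, false, true) := by
  ext i j
  fin_cases i <;> fin_cases j <;> simp [sigMat, sgn] <;> ring

variable {H : Type} [NormedAddCommGroup H] [InnerProductSpace ℂ H] [CompleteSpace H]

/-- Two by two matrices acting at every site, commuting at different sites. -/
structure IsSide (f : ℕ → Matrix (Fin 2) (Fin 2) ℂ → (AmbH H →L[ℂ] AmbH H)) : Prop where
  mul : ∀ n a b, f n a * f n b = f n (a * b)
  adj : ∀ n a, star (f n a) = f n aᴴ
  one : ∀ n, f n 1 = 1
  add : ∀ n a b, f n (a + b) = f n a + f n b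
  smul : ∀ n (c : ℂ) a, f n (c • a) = c • f n a
  comm : ∀ n m a b, n ≠ m → Commute (f n a) (f m b)

theorem rightMat_one : rightMat 1 = 1 := by
  ext i j
  fin_cases i <;> fin_cases j <;> simp [rightMat]

theorem rightMat_add (a b : Matrix (Fin 2) (Fin 2) ℂ) :
    rightMat (a + b) = rightMat a + rightMat b := by
  ext i j
  fin_cases i <;> fin_cases j <;> simp [rightMat]

theorem leftMat_smul (c : ℂ) (a : Matrix (Fin 2) (Fin 2) ℂ) :
    leftMat (c • a) = c • leftMat a := by
  ext i j
  fin_cases i <;> fin_cases j <;> simp [leftMat]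

theorem rightMat_smul (c : ℂ) (a : Matrix (Fin 2) (Fin 2) ℂ) :
    rightMat (c • a) = c • rightMat a := by
  ext i j
  fin_cases i <;> fin_cases j <;> simp [rightMat]

theorem isSide_lsite : IsSide (H := H) fun n a => lsite n a where
  mul n a b := leftSite_mul (siteW_sq n) n a b
  adj n a := star_leftSite _ n a
  one n := by
    simp only [lsite, leftSite, leftMat_one, Matrix.mul_one, siteBasis_sq (siteW_sq n), siteOp_one]
  add n a b := by
    simp only [lsite, leftSite, leftMat_add, Matrix.mul_add, Matrix.add_mul, siteOp_add]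
  smul n c a := by
    simp only [lsite, leftSite, leftMat_smul, Matrix.mul_smul, Matrix.smul_mul, siteOp_smul]
  comm n m a b h := siteOp_comm h _ _

theorem isSide_rsite : IsSide (H := H) fun n a => rsite n a where
  mul n a b := by
    simp only [rsite, rightSite, siteOp_mul, conj_mul (siteW_sq n), rightMat_mul]
  adj n a := star_rightSite _ n a
  one n := by
    simp only [rsite, rightSite, rightMat_one, Matrix.mul_one, siteBasis_sq (siteW_sq n),
      siteOp_one]
  add n a b := by
    simp only [rsite, rightSite, rightMat_add, Matrix.mul_add, Matrix.add_mul, siteOp_add]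
  smul n c a := by
    simp only [rsite, rightSite, rightMat_smul, Matrix.mul_smul, Matrix.smul_mul, siteOp_smul]
  comm n m a b h := siteOp_comm h _ _

variable {f : ℕ → Matrix (Fin 2) (Fin 2) ℂ → (AmbH H →L[ℂ] AmbH H)}

open Classical in
/-- The products over the first sites of signed monomial matrices. -/
noncomputable def siteFin (f : ℕ → Matrix (Fin 2) (Fin 2) ℂ → (AmbH H →L[ℂ] AmbH H)) :
    ℕ → Finset (AmbH H →L[ℂ] AmbH H)
  | 0 => {1}
  | n + 1 => ((siteFin f n) ×ˢ (Finset.univ : Finset (Bool × Bool × Bool))).image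
      fun p => p.1 * f n (sigMat p.2)

theorem mem_siteFin_succ {n : ℕ} {x : AmbH H →L[ℂ] AmbH H} :
    x ∈ siteFin f (n + 1) ↔ ∃ g ∈ siteFin f n, ∃ p, g * f n (sigMat p) = x := by
  classical
  simp only [siteFin, Finset.mem_image, Finset.mem_product, Finset.mem_univ, and_true]
  constructor
  · rintro ⟨⟨g, p⟩, hg, rfl⟩; exact ⟨g, hg, p, rfl⟩
  · rintro ⟨g, hg, p, rfl⟩; exact ⟨(g, p), hg, rfl⟩

namespace IsSide

variable (hf : IsSide f)
include hf

theorem comm_siteFin {n m : ℕ} (hm : n ≤ m) (a : Matrix (Fin 2) (Fin 2) ℂ) :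
    ∀ g ∈ siteFin f n, Commute (f m a) g := by
  induction n with
  | zero => intro g hg; obtain rfl : g = 1 := by simpa [siteFin] using hg
            exact Commute.one_right _
  | succ n ih =>
    intro g hg
    obtain ⟨g, hg', p, rfl⟩ := mem_siteFin_succ.1 hg
    exact (ih (Nat.le_of_succ_le hm) g hg').mul_right (hf.comm _ _ _ _ (Nat.ne_of_gt hm))

theorem one_mem : ∀ n, (1 : AmbH H →L[ℂ] AmbH H) ∈ siteFin f n
  | 0 => by simp [siteFin]
  | n + 1 => mem_siteFin_succ.2
      ⟨1, one_mem n, (false, false, false), by rw [sigMat_one, hf.one, mul_one]⟩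

theorem mul_mem : ∀ n, ∀ g ∈ siteFin f n, ∀ h ∈ siteFin f n, g * h ∈ siteFin f n := by
  intro n
  induction n with
  | zero => simp [siteFin]
  | succ n ih =>
    intro g hg h hh
    obtain ⟨g, hg', p, rfl⟩ := mem_siteFin_succ.1 hg
    obtain ⟨h, hh', q, rfl⟩ := mem_siteFin_succ.1 hh
    refine mem_siteFin_succ.2 ⟨g * h, ih g hg' h hh', sigMul p q, ?_⟩
    rw [← sigMat_mul, ← hf.mul]
    calc g * h * (f n (sigMat p) * f n (sigMat q))
        = g * (h * f n (sigMat p)) * f n (sigMat q) := by simp only [mul_assoc]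
      _ = g * f n (sigMat p) * (h * f n (sigMat q)) := by
          rw [← (hf.comm_siteFin le_rfl _ h hh').eq]; simp only [mul_assoc]

theorem star_mem' : ∀ n, ∀ g ∈ siteFin f n, star g ∈ siteFin f n := by
  intro n
  induction n with
  | zero => simp [siteFin]
  | succ n ih =>
    intro g hg
    obtain ⟨g, hg', p, rfl⟩ := mem_siteFin_succ.1 hg
    refine mem_siteFin_succ.2 ⟨star g, ih g hg', sigStar p, ?_⟩
    rw [star_mul, hf.adj, sigMat_star, (hf.comm_siteFin le_rfl _ _ (ih g hg')).eq]

theorem mem_unitary : ∀ n, ∀ g ∈ siteFin f n, g ∈ unitary (AmbH H →L[ℂ] AmbH H) := by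
  intro n
  induction n with
  | zero => intro g hg; obtain rfl : g = 1 := by simpa [siteFin] using hg
            exact Submonoid.one_mem _
  | succ n ih =>
    intro g hg
    obtain ⟨g, hg', p, rfl⟩ := mem_siteFin_succ.1 hg
    refine Submonoid.mul_mem _ (ih g hg') (Unitary.mem_iff.2 ⟨?_, ?_⟩) <;>
      rw [hf.adj, hf.mul]
    · rw [(sigMat_unitary p).1, hf.one]
    · rw [(sigMat_unitary p).2, hf.one]

theorem mono : ∀ m n, m ≤ n → siteFin f m ⊆ siteFin f n := by
  intro m n h
  induction h with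
  | refl => exact subset_rfl
  | @step k _ ih =>
    intro g hg
    exact mem_siteFin_succ.2
      ⟨g, ih hg, (false, false, false), by rw [sigMat_one, hf.one, mul_one]⟩

/-- The finite groups of a side. -/
noncomputable def groups : Groups (AmbH H) where
  G := siteFin f
  one_mem := hf.one_mem
  mul_mem := hf.mul_mem
  star_mem := hf.star_mem'
  mem_unitary := hf.mem_unitary
  mono := hf.mono

theorem carrier_comm {x : AmbH H →L[ℂ] AmbH H} (hx : ∀ n a, Commute (f n a) x) :
    ∀ g ∈ hf.groups.carrier, Commute g x := by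
  rintro g ⟨n, hn⟩
  change g ∈ siteFin f n at hn
  induction n generalizing g with
  | zero => obtain rfl : g = 1 := by simpa [siteFin] using hn
            exact Commute.one_left _
  | succ n ih =>
    obtain ⟨g, hg', p, rfl⟩ := mem_siteFin_succ.1 hn
    exact (ih g hg').mul_left (hx _ _)

theorem carrier_mem (P : VonNeumannAlgebra (AmbH H)) (h : ∀ n a, f n a ∈ P) :
    ∀ g ∈ hf.groups.carrier, g ∈ P := by
  rintro g ⟨n, hn⟩
  change g ∈ siteFin f n at hn
  induction n generalizing g with
  | zero => obtain rfl : g = 1 := by simpa [siteFin] using hn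
            exact OneMemClass.one_mem P
  | succ n ih =>
    obtain ⟨g, hg', p, rfl⟩ := mem_siteFin_succ.1 hn
    exact MulMemClass.mul_mem (ih g hg') (h _ _)

theorem comm_of_carrier {x : AmbH H →L[ℂ] AmbH H}
    (hx : ∀ g ∈ hf.groups.carrier, Commute g x) (n : ℕ) (a : Matrix (Fin 2) (Fin 2) ℂ) :
    Commute (f n a) x := by
  have h : ∀ p, Commute (f n (sigMat p)) x := fun p =>
    hx _ ⟨n + 1, mem_siteFin_succ.2 ⟨1, hf.one_mem n, p, one_mul _⟩⟩
  rw [sigMat_span a, hf.add, hf.add, hf.add, hf.smul, hf.smul, hf.smul, hf.smul]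
  exact ((((h _).smul_left _).add_left ((h _).smul_left _)).add_left
    ((h _).smul_left _)).add_left ((h _).smul_left _)

end IsSide

/-! ### The operators commuting with the sites -/

theorem ten_inj {x y : H →L[ℂ] H} (h : ten x = ten y) : x = y := by
  refine ContinuousLinearMap.ext fun v => ?_
  have := congrArg (fun T : AmbH H →L[ℂ] AmbH H => T (put0 v) (0 : Idx)) h
  simpa [put0_apply, ten_single, lp.single_apply] using this

theorem norm_ten (x : H →L[ℂ] H) : ‖ten x‖ = ‖x‖ := by
  refine le_antisymm (lp.norm_mapCLM_le 2 _ x.opNorm_nonneg fun _ => le_rfl)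
    (x.opNorm_le_bound (norm_nonneg _) fun v => ?_)
  have h1 : ∀ u : H, ‖(lp.single 2 (0 : Idx) u : AmbH H)‖ = ‖u‖ := fun u =>
    lp.norm_single (by norm_num) _ _
  have h2 := (ten x).le_opNorm (lp.single 2 (0 : Idx) v)
  rwa [ten_single, h1, h1] at h2

/-! ### The stabilised algebra -/

theorem comm_commutant {M : VonNeumannAlgebra H} {X : AmbH H →L[ℂ] AmbH H} (hX : X ∈ amb M)
    {g : AmbH H →L[ℂ] AmbH H} (hg : g ∈ (amb M).commutant) : Commute g X :=
  (VonNeumannAlgebra.mem_commutant_iff.1 hg X hX).symm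

/-- The amplifications are in the stabilised algebra. -/
theorem ten_mem : ∀ (H : Type) [NormedAddCommGroup H] [InnerProductSpace ℂ H] [CompleteSpace H]
    (M : VonNeumannAlgebra H), ∀ x ∈ M, ten x ∈ amb M :=
  fun _ _ _ _ _ _ hx => ten_mem_amb hx

/-- An element of the stabilised algebra commuting with the sites is an amplification. -/
theorem commute_sites : ∀ (H : Type) [NormedAddCommGroup H] [InnerProductSpace ℂ H]
    [CompleteSpace H] (M : VonNeumannAlgebra H) (x : AmbH H →L[ℂ] AmbH H), x ∈ amb M →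
    (∀ n a, x * lsite n a = lsite n a * x) → ∃ x₀ ∈ M, x = ten x₀ := by
  intro H _ _ _ M x hx h
  exact exists_of_commute_sites M hx h

/-- The centre of the stabilised algebra is that of the algebra. -/
theorem centre : ∀ (H : Type) [NormedAddCommGroup H] [InnerProductSpace ℂ H] [CompleteSpace H]
    (M : VonNeumannAlgebra H) (z : AmbH H →L[ℂ] AmbH H),
    (z ∈ amb M ∧ z ∈ (amb M).commutant) ↔ ∃ z₀, (z₀ ∈ M ∧ z₀ ∈ M.commutant) ∧ z = ten z₀ := by
  intro H _ _ _ M z
  constructor
  · rintro ⟨h1, h2⟩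
    obtain ⟨y, hy, rfl⟩ := commute_sites H M z h1 fun n a =>
      (comm_commutant (lsite_mem M n a) h2).eq
    refine ⟨y, ⟨hy, VonNeumannAlgebra.mem_commutant_iff.2 fun x hx => ten_inj ?_⟩, rfl⟩
    rw [← ten_mul, ← ten_mul]
    exact (comm_commutant (ten_mem_amb hx) h2).symm.eq
  · rintro ⟨y, ⟨h1, h2⟩, rfl⟩
    exact ⟨ten_mem_amb h1, ten_mem_commutant M h2⟩

theorem ten_one : ten (1 : H →L[ℂ] H) = 1 :=
  ContinuousLinearMap.ext fun f => lp.ext (funext fun _ => rfl)

theorem ten_sub (x y : H →L[ℂ] H) : ten (x - y) = ten x - ten y :=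
  ContinuousLinearMap.ext fun f => lp.ext (funext fun _ => rfl)

/-- The amplification as a homomorphism. -/
noncomputable def tenHom : (H →L[ℂ] H) →⋆ₐ[ℂ] (AmbH H →L[ℂ] AmbH H) where
  toFun := ten
  map_one' := ten_one
  map_mul' x y := (ten_mul x y).symm
  map_zero' := ContinuousLinearMap.ext fun f => lp.ext (funext fun _ => rfl)
  map_add' x y := ContinuousLinearMap.ext fun f => lp.ext (funext fun _ => rfl)
  commutes' c := ContinuousLinearMap.ext fun f => lp.ext (funext fun _ => rfl)
  map_star' x := (star_ten x).symm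

/-- One side of the closeness. -/
theorem near_amb : ∃ C : ℝ, 0 ≤ C ∧ ∀ (H : Type) [NormedAddCommGroup H] [InnerProductSpace ℂ H]
    [CompleteSpace H] (M N : VonNeumannAlgebra H) (γ : ℝ), 0 ≤ γ →
    NearIncl (M : Set (H →L[ℂ] H)) N γ →
      NearIncl (amb M : Set (AmbH H →L[ℂ] AmbH H)) (amb N) (C * γ) := by
  obtain ⟨C, hC, h⟩ := commutant_near.{0}
  refine ⟨C * C, by positivity, fun H _ _ _ M N γ hγ hMN X hX hX1 => ?_⟩
  have hs : ∀ x ∈ N.commutant.toStarSubalgebra.map tenHom, ‖x‖ ≤ 1 →
      ∃ y ∈ M.commutant.toStarSubalgebra.map tenHom, ‖x - y‖ ≤ C * γ := by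
    rintro _ ⟨y, hy, rfl⟩ hy1
    change ‖ten y‖ ≤ 1 at hy1
    rw [norm_ten] at hy1
    have hy' : y ∈ Set.centralizer (N : Set (H →L[ℂ] H)) := by
      rw [← VonNeumannAlgebra.coe_commutant]; exact hy
    obtain ⟨z, hz, hyz⟩ := h H M.toStarSubalgebra N.toStarSubalgebra γ hγ
      (fun x hx hx1 => hMN x hx hx1) y hy' hy1
    refine ⟨ten z, ⟨z, ?_, rfl⟩, ?_⟩
    · show z ∈ M.commutant
      rw [← SetLike.mem_coe, VonNeumannAlgebra.coe_commutant]; exact hz
    · show ‖ten y - ten z‖ ≤ C * γ
      rw [← ten_sub, norm_ten]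
      exact hyz
  obtain ⟨Y₀, hY₀, hXY⟩ := h (AmbH H) (N.commutant.toStarSubalgebra.map tenHom)
    (M.commutant.toStarSubalgebra.map tenHom) (C * γ) (by positivity) hs X (by
      rintro _ ⟨y, hy, rfl⟩
      exact (comm_commutant hX (ten_mem_commutant M hy)).eq) hX1
  let Γ : Groups (AmbH H) := isSide_rsite.groups
  have hgX : ∀ g ∈ Γ.carrier, Commute g X :=
    isSide_rsite.carrier_comm fun n a => comm_commutant hX (rsite_mem M n a)
  have hgn : ∀ g ∈ Γ.carrier, ‖g‖ ≤ 1 := fun g hg =>
    Full.Reduce.norm_le_one (Groups.unitary_carrier hg)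
  have hb : ∀ (T : AmbH H →L[ℂ] AmbH H), ∀ g ∈ Γ.carrier, ‖g * T * star g‖ ≤ ‖T‖ := fun T g hg =>
    (norm_mul_le _ _).trans ((mul_le_of_le_one_right (norm_nonneg _)
      (by rw [norm_star]; exact hgn g hg)).trans ((norm_mul_le _ _).trans
        (mul_le_of_le_one_left (norm_nonneg _) (hgn g hg))))
  obtain ⟨Y, hY⟩ := Full.Reduce.exists_mean (hb Y₀)
  have hYk : ∀ k ∈ Γ.carrier, Commute k Y := fun k hk => by
    obtain ⟨k1, k2⟩ := Unitary.mem_iff.1 (Groups.unitary_carrier hk)
    have h1 := (hY.shift hk).unique (((hY.mul_left k).mul_right (star k)).congr fun g _ => by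
      show k * (g * Y₀ * star g) * star k = k * g * Y₀ * star (k * g)
      rw [star_mul]; simp only [mul_assoc])
    show k * Y = Y * k
    conv_rhs => rw [h1]
    rw [mul_assoc _ (star k) k, k1, mul_one]
  refine ⟨Y, ?_, ?_⟩
  · have hten : ∀ y ∈ N.commutant, Commute (ten y) Y := fun y hy => hY.commute fun g hg => by
      have hc : ∀ g' ∈ Γ.carrier, Commute g' (ten y) := isSide_rsite.carrier_comm fun n a =>
        (ten_siteOp y n _).symm
      have h0 : ten y * Y₀ = Y₀ * ten y := hY₀ _ ⟨y, hy, rfl⟩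
      calc ten y * (g * Y₀ * star g) = g * (ten y * Y₀) * star g := by
            simp only [← mul_assoc, (hc g hg).eq]
        _ = g * Y₀ * (ten y * star g) := by rw [h0]; simp only [mul_assoc]
        _ = g * Y₀ * star g * ten y := by
            rw [← (hc _ (Groups.star_carrier hg)).eq]; simp only [mul_assoc]
    refine (StarSubalgebra.mem_centralizer_iff (R := ℂ)).2 ?_
    rintro g (⟨y, hy, rfl⟩ | ⟨⟨n, a⟩, rfl⟩)
    · exact ⟨(hten y hy).eq, by rw [star_ten]; exact (hten _ (star_mem hy)).eq⟩
    · exact ⟨(isSide_rsite.comm_of_carrier hYk n a).eq, by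
        rw [star_rightSite]; exact (isSide_rsite.comm_of_carrier hYk n aᴴ).eq⟩
  · show ‖X - Y‖ ≤ C * C * γ
    refine ((IsMean.const (Γ := Γ) X).sub hY).norm_le (by positivity) fun g hg => ?_
    have e : X - g * Y₀ * star g = g * (X - Y₀) * star g := by
      rw [mul_sub, sub_mul, (hgX g hg).eq, mul_assoc X,
        (Unitary.mem_iff.1 (Groups.unitary_carrier hg)).2, mul_one]
    rw [e]
    exact (hb _ g hg).trans (hXY.trans_eq (by ring))

/-- Close algebras have close stabilisations. -/
theorem close : ∃ C : ℝ, 0 ≤ C ∧ ∀ (H : Type) [NormedAddCommGroup H] [InnerProductSpace ℂ H]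
    [CompleteSpace H] (M N : VonNeumannAlgebra H) (γ : ℝ), Lit.IsClose H M N γ →
      Lit.IsClose (AmbH H) (amb M) (amb N) (C * γ) := by
  obtain ⟨C, hC, h⟩ := near_amb
  refine ⟨C, hC, fun H _ _ _ M N γ hc => ?_⟩
  have hγ : 0 ≤ γ := by
    obtain ⟨x, _, hx⟩ := hc.1 0 (zero_mem _)
      (ContinuousLinearMap.opNorm_le_bound _ zero_le_one fun z => by simp)
    exact (norm_nonneg _).trans hx
  exact ⟨h H M N γ hγ hc.1, h H N M γ hγ hc.2⟩

end Vale.Agent.P096.Three.Amb
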