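import Vale.Agent.P096.Three.Amb.Units
import Vale.Agent.P096.Three.Spec
import Vale.Agent.P132.Tomita.Graph
import Vale.Agent.P132.TypeThree.Form

/-!
P096, stabilisation: the modular data of the stabilised algebra act componentwise.  The projection on
the closure of the self-adjoint vectors is computed on single states from the units of the sites and
the density in the graph; the rest is the uniqueness built into Tomita's construction.
-/

open scoped InnerProductSpace ComplexConjugate
open Filter Topology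

namespace Vale.Agent.P096.Three.Amb

open Cent
open Vale.Agent.P132.Tomita Vale.Agent.P132.TypeThree

set_option linter.unusedSectionVars false

variable {H : Type} [NormedAddCommGroup H] [InnerProductSpace ℂ H] [CompleteSpace H]

/-! ### Functions of a level -/

/-- The point `r` of the spectrum moved into `[0, 2]`. -/
noncomputable def den (l r : ℝ) : ℝ := max 0 (min r 2) + Real.exp l * (2 - max 0 (min r 2))

/-- The factor from `R` to the component of level `l`. -/
noncomputable def kfn (l r : ℝ) : ℝ := 2 / den l r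

/-- `R` of level `l` as a function of `R`. -/
noncomputable def gfn (l r : ℝ) : ℝ := r * kfn l r

theorem den_pos (l r : ℝ) : 0 < den l r := by
  have h1 := le_max_left 0 (min r 2)
  have h2 : max 0 (min r 2) ≤ 2 := max_le (by norm_num) (min_le_right _ _)
  have h3 := Real.exp_pos l
  unfold den
  rcases h1.eq_or_lt with h | h
  · rw [← h]; nlinarith
  · nlinarith

theorem continuous_kfn (l : ℝ) : Continuous (kfn l) := by
  unfold kfn
  refine continuous_const.div ?_ fun r => (den_pos l r).ne'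
  unfold den
  fun_prop

theorem continuous_gfn (l : ℝ) : Continuous (gfn l) := continuous_id.mul (continuous_kfn l)

theorem den_eq {l r : ℝ} (hr : r ∈ Set.Icc (0 : ℝ) 2) : den l r = r + Real.exp l * (2 - r) := by
  rw [den, min_eq_left hr.2, max_eq_right hr.1]

theorem two_sub_gfn {l r : ℝ} (hr : r ∈ Set.Icc (0 : ℝ) 2) :
    2 - gfn l r = Real.exp l * ((2 - r) * kfn l r) := by
  have hd := den_pos l r
  have e := den_eq (l := l) hr
  rw [gfn, kfn]
  field_simp
  rw [e]
  ring

theorem gfn_mem {l r : ℝ} (hr : r ∈ Set.Icc (0 : ℝ) 2) : gfn l r ∈ Set.Icc (0 : ℝ) 2 := by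
  have hk : 0 ≤ kfn l r := div_nonneg zero_le_two (den_pos l r).le
  refine ⟨mul_nonneg hr.1 hk, sub_nonneg.1 ?_⟩
  rw [two_sub_gfn hr]
  exact mul_nonneg (Real.exp_pos l).le (mul_nonneg (sub_nonneg.2 hr.2) hk)

theorem exp_half_sq (l : ℝ) : Real.exp (l / 2) * Real.exp (l / 2) = Real.exp l := by
  rw [← Real.exp_add, add_halves]

theorem fT_gfn {l r : ℝ} (hr : r ∈ Set.Icc (0 : ℝ) 2) :
    fT (gfn l r) = Real.exp (l / 2) * (fT r * kfn l r) := by
  have hk : 0 ≤ kfn l r := div_nonneg zero_le_two (den_pos l r).le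
  have e : gfn l r * (2 - gfn l r) = (Real.exp (l / 2) * kfn l r) ^ 2 * (r * (2 - r)) := by
    rw [two_sub_gfn hr, ← exp_half_sq, gfn]
    ring
  rw [fT, e, Real.sqrt_mul (sq_nonneg _), Real.sqrt_sq (mul_nonneg (Real.exp_pos _).le hk), fT]
  ring

theorem fT_le_one (r : ℝ) : fT r ≤ 1 := by
  rw [fT, Real.sqrt_le_one]
  nlinarith [sq_nonneg (r - 1)]

/-- The logarithm moves by the level, away from the ends where `fT` vanishes. -/
theorem fT_logD_gfn {l r : ℝ} (hr : r ∈ Set.Icc (0 : ℝ) 2) (φ : ℝ → ℝ) :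
    fT (gfn l r) * φ (logD (gfn l r)) =
      Real.exp (l / 2) * (kfn l r * (fT r * φ (l + logD r))) := by
  rw [fT_gfn hr]
  rcases eq_or_ne (fT r) 0 with h | h
  · simp [h]
  have h0 : 0 < r := lt_of_not_ge fun hh => h (fT_zero (Or.inl hh))
  have h2 : 0 < 2 - r := sub_pos.2 (lt_of_not_ge fun hh => h (fT_zero (Or.inr hh)))
  have hk : 0 < kfn l r := div_pos two_pos (den_pos l r)
  have e : logD (gfn l r) = l + logD r := by
    rw [logD, logD, two_sub_gfn hr, gfn, Real.log_mul (Real.exp_pos l).ne' (by positivity),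
      Real.log_exp, Real.log_mul h2.ne' hk.ne', Real.log_mul h0.ne' hk.ne']
    ring
  rw [e]
  ring

theorem gC_gfn (t : ℝ) {l r : ℝ} (hr : r ∈ Set.Icc (0 : ℝ) 2) :
    gC t (gfn l r) = Real.exp (l / 2) *
      (kfn l r * (Real.cos (t * l) * gC t r - Real.sin (t * l) * gS t r)) := by
  rw [gC, fT_logD_gfn hr fun x => Real.cos (t * x), mul_add, Real.cos_add, gC, gS]
  ring

theorem gS_gfn (t : ℝ) {l r : ℝ} (hr : r ∈ Set.Icc (0 : ℝ) 2) :
    gS t (gfn l r) = Real.exp (l / 2) *
      (kfn l r * (Real.sin (t * l) * gC t r + Real.cos (t * l) * gS t r)) := by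
  rw [gS, fT_logD_gfn hr fun x => Real.sin (t * x), mul_add, Real.sin_add, gC, gS]
  ring

/-! ### Generalities -/

/-- A real function of an operator, elaborated for an abstract space. -/
noncomputable def cfR (f : ℝ → ℝ) (R : H →L[ℂ] H) : H →L[ℂ] H := cfc f R

theorem opT_eq_cfR (R : H →L[ℂ] H) : opT R = cfR fT R := rfl

theorem fR_eq_cfR (M : VonNeumannAlgebra H) (ξ : H) (f : ℝ → ℝ) :
    fR M ξ f = cfR f (opR M ξ) := rfl


theorem cfc_fU_eq {R : H →L[ℂ] H} (hs : IsSelfAdjoint R) (t : ℝ) :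
    cfc (fun z : ℂ => fU t z.re) R = cfc (gC t) R + Complex.I • cfc (gS t) R := by
  have c1 : Continuous fun z : ℂ => ((gC t z.re : ℝ) : ℂ) :=
    Complex.continuous_ofReal.comp ((continuous_gC t).comp Complex.continuous_re)
  have c2 : Continuous fun z : ℂ => ((gS t z.re : ℝ) : ℂ) :=
    Complex.continuous_ofReal.comp ((continuous_gS t).comp Complex.continuous_re)
  simp only [fU_eq]
  rw [cfc_add _ (fun z : ℂ => ((gC t z.re : ℝ) : ℂ)) (fun z : ℂ => Complex.I * (gS t z.re : ℝ))
      c1.continuousOn (continuous_const.mul c2).continuousOn,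
    cfc_const_mul Complex.I _ _ c2.continuousOn, cfc_real_eq_complex (gC t) hs,
    cfc_real_eq_complex (gS t) hs]

/-- A map intertwining two operators intertwines their functions. -/
theorem cfc_intertwine {K : Type} [NormedAddCommGroup K] [InnerProductSpace ℂ K] [CompleteSpace K]
    {R : H →L[ℂ] H} {S : K →L[ℂ] K} (hR : IsSelfAdjoint R) (hS : IsSelfAdjoint S)
    (hRs : spectrum ℝ R ⊆ Set.Icc 0 2) (hSs : spectrum ℝ S ⊆ Set.Icc 0 2) (A : H →L[ℂ] K)
    (h : ∀ v, S (A v) = A (R v)) {f : ℝ → ℝ} (hf : Continuous f) (v : H) :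
    cfR f S (A v) = A (cfc f R v) := by
  rw [cfR]
  have hp : ∀ p : Polynomial ℝ, ∀ v, Polynomial.aeval S p (A v) = A (Polynomial.aeval R p v) := by
    intro p
    induction p using Polynomial.induction_on with
    | C a => intro v; simp [Algebra.algebraMap_eq_smul_one]
    | add p q hp hq => intro v; simp [hp, hq]
    | monomial n a ih =>
      intro v
      rw [pow_succ, ← mul_assoc, map_mul (Polynomial.aeval S), map_mul (Polynomial.aeval R),
        mul_apply_eq_comp, mul_apply_eq_comp, Polynomial.aeval_X, Polynomial.aeval_X, h, ih]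
  refine eq_of_forall_dist_le fun ε hε => ?_
  set δ := ε / (2 * ‖A‖ * ‖v‖ + 1) with hδ
  have hδ0 : 0 < δ := by positivity
  obtain ⟨p, hp'⟩ := exists_polynomial_near_of_continuousOn 0 2 f hf.continuousOn δ hδ0
  have b1 : ‖cfc f S - cfc (fun r => p.eval r) S‖ ≤ δ := by
    rw [← cfc_sub f _ S hf.continuousOn p.continuous.continuousOn]
    refine norm_cfc_le hδ0.le fun r hr => ?_
    rw [Real.norm_eq_abs, abs_sub_comm]
    exact (hp' r (hSs hr)).le
  have b2 : ‖cfc f R - cfc (fun r => p.eval r) R‖ ≤ δ := by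
    rw [← cfc_sub f _ R hf.continuousOn p.continuous.continuousOn]
    refine norm_cfc_le hδ0.le fun r hr => ?_
    rw [Real.norm_eq_abs, abs_sub_comm]
    exact (hp' r (hRs hr)).le
  rw [cfc_polynomial p S hS] at b1
  rw [cfc_polynomial p R hR] at b2
  rw [dist_eq_norm, show cfc f S (A v) - A (cfc f R v) =
    (cfc f S - Polynomial.aeval S p) (A v) - A ((cfc f R - Polynomial.aeval R p) v) by
      rw [sub_apply, sub_apply, map_sub, hp]; abel]
  calc _ ≤ δ * (‖A‖ * ‖v‖) + ‖A‖ * (δ * ‖v‖) := by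
        refine (norm_sub_le _ _).trans (add_le_add ?_ ?_)
        · exact (ContinuousLinearMap.le_opNorm _ _).trans
            (mul_le_mul b1 (A.le_opNorm v) (norm_nonneg _) hδ0.le)
        · exact (A.le_opNorm _).trans (mul_le_mul_of_nonneg_left
            (ContinuousLinearMap.le_of_opNorm_le _ b2 v) (norm_nonneg _))
    _ ≤ δ * (2 * ‖A‖ * ‖v‖ + 1) := by nlinarith
    _ = ε := div_mul_cancel₀ ε (by positivity)

/-- The vector `v` in the state `i`. -/
noncomputable def singleC (i : Idx) : H →L[ℂ] AmbH H :=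
  lp.singleContinuousLinearMap ℂ (fun _ : Idx => H) 2 i

theorem singleC_apply (i : Idx) (v : H) : singleC i v = lp.single 2 i v := rfl

theorem norm_singleC (i : Idx) (v : H) : ‖(lp.single 2 i v : AmbH H)‖ = ‖v‖ :=
  lp.norm_single (E := fun _ : Idx => H) (p := 2) (by norm_num) i v

/-- A closed additive condition holds everywhere if it holds on single states. -/
theorem mem_of_single (W : Set (AmbH H)) (hW : IsClosed W) (h0 : 0 ∈ W)
    (hadd : ∀ u ∈ W, ∀ v ∈ W, u + v ∈ W) (h : ∀ i v, lp.single 2 i v ∈ W) (f : AmbH H) :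
    f ∈ W := by
  refine hW.mem_of_tendsto (lp.hasSum_single (by simp) f) (Eventually.of_forall fun F => ?_)
  exact Finset.sum_induction _ (· ∈ W) (fun u v hu hv => hadd u hu v hv) h0 fun i _ => h i _

/-- Operators agreeing on single states are equal. -/
theorem clm_ext_single {A B : AmbH H →L[ℂ] AmbH H}
    (h : ∀ i v, A (lp.single 2 i v) = B (lp.single 2 i v)) : A = B :=
  ContinuousLinearMap.ext fun f => mem_of_single {f | A f = B f}
    (isClosed_eq A.continuous B.continuous) (by simp) (fun u hu v hv => by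
      simp only [Set.mem_ofPred_eq] at hu hv ⊢
      rw [map_add, map_add, hu, hv]) h f

/-- An operator given on each state. -/
noncomputable def compOp (A : Idx → H →L[ℂ] H) (K : ℝ) (hK : 0 ≤ K) (hA : ∀ i, ‖A i‖ ≤ K) :
    AmbH H →L[ℂ] AmbH H :=
  lp.mapCLM 2 A hK hA

theorem compOp_apply (A : Idx → H →L[ℂ] H) {K : ℝ} (hK : 0 ≤ K) (hA : ∀ i, ‖A i‖ ≤ K)
    (f : AmbH H) (i : Idx) : compOp A K hK hA f i = A i (f i) := rfl

theorem compOp_single (A : Idx → H →L[ℂ] H) {K : ℝ} (hK : 0 ≤ K) (hA : ∀ i, ‖A i‖ ≤ K)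
    (i : Idx) (v : H) : compOp A K hK hA (lp.single 2 i v) = lp.single 2 i (A i v) := by
  refine lp.ext (funext fun j => ?_)
  rw [compOp_apply]
  rcases eq_or_ne j i with rfl | h <;> simp [lp.single_apply, *]

/-- The conjugation of the stabilised algebra. -/
noncomputable def ambJ (J : H ≃ₗᵢ⋆[ℂ] H) (hJ : ∀ v, J (J v) = v) : AmbH H ≃ₗᵢ⋆[ℂ] AmbH H where
  toFun f := ⟨fun i => J (f (flipIdx i)),
    memℓp_gen (by simpa only [LinearIsometryEquiv.norm_map] using summable_reidx flipIdx f)⟩
  map_add' f g := lp.ext (funext fun i => by simp; rfl)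
  map_smul' c f := lp.ext (funext fun i => by simp [LinearIsometryEquiv.map_smulₛₗ])
  invFun f := ⟨fun i => J (f (flipIdx i)),
    memℓp_gen (by simpa only [LinearIsometryEquiv.norm_map] using summable_reidx flipIdx f)⟩
  left_inv f := lp.ext (funext fun i => by
    show J (J (f (flipIdx (flipIdx i)))) = f i
    rw [hJ, flipIdx_flipIdx])
  right_inv f := lp.ext (funext fun i => by
    show J (J (f (flipIdx (flipIdx i)))) = f i
    rw [hJ, flipIdx_flipIdx])
  norm_map' f := by
    have h2 : 0 < (2 : ENNReal).toReal := by norm_num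
    rw [lp.norm_eq_tsum_rpow h2, lp.norm_eq_tsum_rpow h2]
    congr 1
    calc _ = ∑' i, ‖f (flipIdx i)‖ ^ (2 : ENNReal).toReal :=
          tsum_congr fun i => congrArg (· ^ (2 : ENNReal).toReal) (J.norm_map _)
      _ = _ := flipIdx.tsum_eq fun i => ‖f i‖ ^ (2 : ENNReal).toReal

theorem ambJ_apply (J : H ≃ₗᵢ⋆[ℂ] H) (hJ : ∀ v, J (J v) = v) (f : AmbH H) (i : Idx) :
    ambJ J hJ f i = J (f (flipIdx i)) := rfl

theorem ambJ_single (J : H ≃ₗᵢ⋆[ℂ] H) (hJ : ∀ v, J (J v) = v) (i : Idx) (v : H) :
    ambJ J hJ (lp.single 2 i v) = lp.single 2 (flipIdx i) (J v) := by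
  refine lp.ext (funext fun j => ?_)
  rw [ambJ_apply]
  rcases eq_or_ne j (flipIdx i) with rfl | h
  · simp [lp.single_apply, flipIdx_flipIdx]
  · have h' : flipIdx j ≠ i := fun e => h (by rw [← e, flipIdx_flipIdx])
    simp [lp.single_apply, h, h']

theorem ambU_single (U : ℝ → H →L[ℂ] H) (t : ℝ) (i : Idx) (v : H) :
    ambU U t (lp.single 2 i v) =
      lp.single 2 i (Complex.exp (((t * level i : ℝ) : ℂ) * Complex.I) • U t v) := by
  refine lp.ext (funext fun j => ?_)
  rw [ambU, mul_apply_eq_comp, diagOp_apply, ten_apply]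
  rcases eq_or_ne j i with rfl | h <;> simp [lp.single_apply, *]

/-- The closure of the self-adjoint vectors is closed. -/
theorem isClosed_kS (M : VonNeumannAlgebra H) (ξ : H) : IsClosed (kS M ξ : Set H) :=
  Submodule.isClosed_topologicalClosure _

/-! ### The self-adjoint vectors of the stabilised algebra -/

theorem norm_put0 (ξ : H) : ‖put0 ξ‖ = ‖ξ‖ := by rw [put0_apply, norm_singleC]

theorem cycSep_amb {M : VonNeumannAlgebra H} {ξ : H} (hs : VP132.IsStandardVector H M ξ) :
    CycSep (amb M) (put0 ξ) := by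
  have h0 : CycSep M ξ := ⟨hs.2.1, hs.2.2⟩
  constructor
  · let W : Submodule ℂ (AmbH H) :=
      { carrier := {v | ∃ x ∈ amb M, x (put0 ξ) = v}
        zero_mem' := ⟨0, zero_mem _, rfl⟩
        add_mem' := by
          rintro _ _ ⟨x, hx, rfl⟩ ⟨y, hy, rfl⟩
          exact ⟨x + y, add_mem hx hy, rfl⟩
        smul_mem' := by
          rintro c _ ⟨x, hx, rfl⟩
          exact ⟨c • x, Vale.Agent.P104.Continuous.smul_mem_vn _ hx, rfl⟩ }
    refine dense_of_single W fun i v => ?_
    obtain ⟨X, hXm, -, -, hXv⟩ := exists_leftUnit M i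
    refine map_mem_closure (singleC i).continuous (hs.2.1 v) ?_
    rintro _ ⟨x, hx, rfl⟩
    refine ⟨ten x * X, mul_mem (ten_mem_amb hx) hXm, ?_⟩
    rw [mul_apply_eq_comp, (hXv _).1, ten_single]
  · intro z hz hzξ
    refine clm_ext_single fun i v => ?_
    obtain ⟨X, hXm, -, -, hXv⟩ := exists_rightUnit M i
    have hd : ∀ y ∈ M.commutant, z (lp.single 2 i (y ξ)) = 0 := by
      intro y hy
      have hc : z * (ten y * X) = ten y * X * z :=
        VonNeumannAlgebra.mem_commutant_iff.1 (mul_mem (ten_mem_commutant M hy) hXm) z hz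
      have := DFunLike.congr_fun hc (put0 ξ)
      simp only [mul_apply_eq_comp, hzξ, map_zero] at this
      rwa [(hXv ξ).1, ten_single] at this
    rw [zero_apply, ← singleC_apply]
    refine congrFun (Continuous.ext_on (g := fun _ => (0 : AmbH H)) h0.commutant_dense
      (z.continuous.comp (singleC i).continuous) continuous_const ?_) v
    rintro _ ⟨y, hy, rfl⟩
    exact hd y hy

variable {M : VonNeumannAlgebra H} {ξ : H} {R : H →L[ℂ] H} {J : H ≃ₗᵢ⋆[ℂ] H}
  {U : ℝ → H →L[ℂ] H}

/-- The operator `R` of level `l`. -/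
noncomputable def compR (R : H →L[ℂ] H) (l : ℝ) : H →L[ℂ] H := cfc (gfn l) R

/-- The operator `T` of level `l`. -/
noncomputable def compT (R : H →L[ℂ] H) (l : ℝ) : H →L[ℂ] H := cfc (fun r => fT (gfn l r)) R

theorem compR_eq (hm : Modular M ξ R J U) (l : ℝ) (v : H) :
    compR R l v = R (cfc (kfn l) R v) := by
  rw [compR, show gfn l = fun r => r * kfn l r from rfl,
    cfc_mul (fun r : ℝ => r) (kfn l) R continuous_id.continuousOn (continuous_kfn l).continuousOn,
    cfc_id' ℝ R hm.R_sa, mul_apply_eq_comp]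

theorem two_sub_compR (hm : Modular M ξ R J U) (l : ℝ) (v : H) :
    (2 : ℂ) • v - compR R l v = (2 : ℂ) • ((Real.exp l : ℂ) • cfc (kfn l) R v) -
      R ((Real.exp l : ℂ) • cfc (kfn l) R v) := by
  have e : cfc (fun r => (2 : ℝ) - gfn l r) R = cfc (fun r => Real.exp l * ((2 - r) * kfn l r)) R :=
    cfc_congr fun r hr => two_sub_gfn (hm.R_spec hr)
  have hc : Continuous fun r : ℝ => (2 - r) * kfn l r :=
    (continuous_const.sub continuous_id).mul (continuous_kfn l)
  rw [cfc_sub (fun _ : ℝ => (2 : ℝ)) (gfn l) R continuous_const.continuousOn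
      (continuous_gfn l).continuousOn, cfc_const (2 : ℝ) R hm.R_sa,
    cfc_const_mul (Real.exp l) _ R hc.continuousOn,
    cfc_mul (fun r : ℝ => 2 - r) (kfn l) R (continuous_const.sub continuous_id).continuousOn
      (continuous_kfn l).continuousOn,
    cfc_sub (fun _ : ℝ => (2 : ℝ)) (fun r => r) R continuous_const.continuousOn
      continuous_id.continuousOn, cfc_id' ℝ R hm.R_sa, cfc_const (2 : ℝ) R hm.R_sa] at e
  have e' := DFunLike.congr_fun e v
  simp only [sub_apply, smul_apply, mul_apply_eq_comp, Algebra.algebraMap_eq_smul_one,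
    one_apply_eq_self] at e'
  rw [map_smul, smul_comm, ← smul_sub, Complex.coe_smul, ← Complex.coe_smul (2 : ℝ)] at *
  rw [compR, show (2 : ℂ) = ((2 : ℝ) : ℂ) by norm_num]
  exact e'

theorem compT_eq (hm : Modular M ξ R J U) (l : ℝ) (v : H) :
    compT R l v = (Real.exp (l / 2) : ℂ) • opT R (cfc (kfn l) R v) := by
  have e : compT R l = cfc (fun r => Real.exp (l / 2) * (fT r * kfn l r)) R :=
    cfc_congr fun r hr => fT_gfn (hm.R_spec hr)
  rw [e, cfc_const_mul (Real.exp (l / 2)) (fun r => fT r * kfn l r) R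
      (continuous_fT.mul (continuous_kfn l)).continuousOn,
    cfc_mul fT (kfn l) R continuous_fT.continuousOn (continuous_kfn l).continuousOn, smul_apply,
    mul_apply_eq_comp, Complex.coe_smul]
  rfl

theorem norm_compR_le (hm : Modular M ξ R J U) (l : ℝ) : ‖compR R l‖ ≤ 2 :=
  norm_cfc_le zero_le_two fun r hr => by
    have := gfn_mem (l := l) (hm.R_spec hr)
    rw [Real.norm_eq_abs, abs_of_nonneg this.1]
    exact this.2

set_option linter.unusedVariables false in
theorem norm_compT_le (hm : Modular M ξ R J U) (l : ℝ) : ‖compT R l‖ ≤ 1 :=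
  norm_cfc_le zero_le_one fun r _ => by
    rw [Real.norm_eq_abs, abs_of_nonneg (fT_nonneg _)]
    exact fT_le_one _

/-- `R` of the stabilised algebra. -/
noncomputable def ambR (hm : Modular M ξ R J U) : AmbH H →L[ℂ] AmbH H :=
  compOp (fun i => compR R (level i)) 2 zero_le_two fun _ => norm_compR_le hm _

/-- `T` of the stabilised algebra. -/
noncomputable def ambT (hm : Modular M ξ R J U) : AmbH H →L[ℂ] AmbH H :=
  compOp (fun i => compT R (level i)) 1 zero_le_one fun _ => norm_compT_le hm _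

/-- The projection on the self-adjoint vectors, in components. -/
noncomputable def ambP (hm : Modular M ξ R J U) (f : AmbH H) : AmbH H :=
  (1 / 2 : ℂ) • (ambR hm f + ambJ J hm.J_J (ambT hm f))

theorem ambP_single (hm : Modular M ξ R J U) (i : Idx) (w : H) :
    ambP hm (lp.single 2 i w) = (1 / 2 : ℂ) • (lp.single 2 i (compR R (level i) w) +
      lp.single 2 (flipIdx i) (J (compT R (level i) w))) := by
  rw [ambP, ambR, ambT, compOp_single, compOp_single, ambJ_single]

theorem continuous_ambP (hm : Modular M ξ R J U) : Continuous (ambP hm) :=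
  (((ambR hm).continuous.fun_add
    ((ambJ J hm.J_J).continuous.comp (ambT hm).continuous)).const_smul (1 / 2 : ℂ)).congr fun _ => rfl

theorem ambP_add (hm : Modular M ξ R J U) (u v : AmbH H) :
    ambP hm (u + v) = ambP hm u + ambP hm v := by
  simp only [ambP, map_add, smul_add]
  abel

/-- Values of `P` on single states lie in the closure of the self-adjoint vectors. -/
theorem ambP_mem_single (hd : StdData M ξ R J U) (i : Idx) (w : H) :
    ambP hd.mod (lp.single 2 i w) ∈ kS (amb M) (put0 ξ) := by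
  have hm := hd.mod
  obtain ⟨X, hXm, -, -, hXv⟩ := exists_leftUnit M i
  set c : ℝ := Real.exp (level i / 2) with hc
  refine (isClosed_kS (amb M) (put0 ξ)).closure_subset
    (Metric.mem_closure_iff.2 fun ε hε => ?_)
  obtain ⟨y, hy, h1, h2⟩ := hd.graph (cfc (kfn (level i)) R w) (ε / (1 + c))
    (by positivity)
  set x := ten y * X with hx
  have hxm : x ∈ amb M := mul_mem (ten_mem_amb hy) hXm
  refine ⟨((1 / 2 : ℂ) • (x + star x)) (put0 ξ), ?_, ?_⟩
  · refine mem_kS (amb M) (put0 ξ)
      (Vale.Agent.P104.Continuous.smul_mem_vn _ (add_mem hxm (star_mem hxm))) ?_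
    rw [IsSelfAdjoint, star_smul, star_add, star_star, add_comm (star x)]
    simp
  have e1 : x (put0 ξ) = lp.single 2 i (y ξ) := by
    rw [hx, mul_apply_eq_comp, (hXv _).1, ten_single]
  have e2 : star x (put0 ξ) = lp.single 2 (flipIdx i) ((c : ℂ) • star y ξ) := by
    rw [hx, star_mul, mul_apply_eq_comp, star_ten, put0_apply, ten_single, ← put0_apply,
      (hXv _).2, lp.single_smul]
  rw [ambP_single, smul_apply, add_apply, e1, e2, dist_eq_norm, ← smul_sub,
    add_sub_add_comm, ← lp.single_sub, ← lp.single_sub, norm_smul]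
  have a1 : ‖compR R (level i) w - y ξ‖ ≤ ε / (1 + c) := by
    rw [compR_eq hm, norm_sub_rev]
    exact h1
  have a2 : ‖J (compT R (level i) w) - (c : ℂ) • star y ξ‖ ≤ c * (ε / (1 + c)) := by
    rw [compT_eq hm, LinearIsometryEquiv.map_smulₛₗ, Complex.conj_ofReal, ← smul_sub, norm_smul,
      Complex.norm_real, Real.norm_eq_abs, abs_of_pos (Real.exp_pos _)]
    refine mul_le_mul_of_nonneg_left ?_ (Real.exp_pos _).le
    rw [← hm.J_J (star y ξ), ← map_sub, LinearIsometryEquiv.norm_map, norm_sub_rev]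
    exact h2
  have a3 := (norm_add_le (lp.single 2 i (compR R (level i) w - y ξ) : AmbH H)
    (lp.single 2 (flipIdx i) (J (compT R (level i) w) - (c : ℂ) • star y ξ))).trans
    (add_le_add ((norm_singleC _ _).trans_le a1) ((norm_singleC _ _).trans_le a2))
  have a4 : ε / (1 + c) + c * (ε / (1 + c)) = ε := by
    have : (1 + c) ≠ 0 := by positivity
    field_simp
  rw [a4] at a3
  rw [show ‖(1 / 2 : ℂ)‖ = 1 / 2 by norm_num]
  linarith

/-- Elements of the commutant give vectors orthogonal to the self-adjoint vectors. -/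
theorem re_inner_skew {N : VonNeumannAlgebra (AmbH H)} {η h : AmbH H}
    {z : AmbH H →L[ℂ] AmbH H} (hz : z ∈ N.commutant) (hh : h ∈ kS N η) :
    (⟪z η - star z η, h⟫_ℂ).re = 0 := by
  set y := (-Complex.I) • (z - star z) with hy
  have hys : IsSelfAdjoint y := by
    rw [IsSelfAdjoint, hy, star_smul, star_sub, star_star]
    simp only [Complex.star_def, map_neg, Complex.conj_I, neg_neg, neg_smul, ← smul_neg, neg_sub]
  have h0 := im_inner_kS N η (Vale.Agent.P104.Continuous.smul_mem_vn _
    (sub_mem hz (star_mem hz))) hys hh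
  rw [smul_apply, sub_apply, inner_smul_left] at h0
  simp only [map_neg, Complex.conj_I, neg_neg, Complex.mul_im, Complex.I_re, Complex.I_im,
    zero_mul, one_mul, zero_add] at h0
  exact h0

theorem re_inner_ambP_single (hd : StdData M ξ R J U) (i : Idx) (w : H) {h : AmbH H}
    (hh : h ∈ kS (amb M) (put0 ξ)) :
    (⟪lp.single 2 i w - ambP hd.mod (lp.single 2 i w), h⟫_ℂ).re = 0 := by
  have hm := hd.mod
  obtain ⟨X, hXm, -, -, hXv⟩ := exists_rightUnit M i
  set c : ℝ := Real.exp (-(level i / 2)) with hc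
  refine eq_of_forall_dist_le fun ε hε => ?_
  set δ := ε / ((1 + c) * ‖h‖ + 1) with hδ
  have hδ0 : 0 < δ := by positivity
  set w₂ := (Real.exp (level i) : ℂ) • cfc (kfn (level i)) R w with hw₂
  obtain ⟨y, hy, h1, h2⟩ := hd.graph (J w₂) δ hδ0
  have hy' : conjBy J y ∈ M.commutant := hm.conj_mem y hy
  set z := ten (conjBy J y) * X with hz
  have hzm : z ∈ (amb M).commutant := mul_mem (ten_mem_commutant M hy') hXm
  have e1 : z (put0 ξ) = lp.single 2 i (J (y ξ)) := by
    rw [hz, mul_apply_eq_comp, (hXv _).1, ten_single, P132.Tomita.conjBy_apply, hm.J_xi]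
  have e2 : star z (put0 ξ) = lp.single 2 (flipIdx i) ((c : ℂ) • J (star y ξ)) := by
    rw [hz, star_mul, mul_apply_eq_comp, star_ten, star_conjBy hm.J_J, put0_apply, ten_single,
      P132.Tomita.conjBy_apply, hm.J_xi, ← put0_apply, (hXv _).2, lp.single_smul]
  have hJR : J (R (J w₂)) = (2 : ℂ) • w₂ - R w₂ := by rw [hm.J_R, hm.J_J]
  have hcT : compT R (level i) w = (c : ℂ) • opT R w₂ := by
    rw [compT_eq hm, hw₂, map_smul, smul_smul, ← Complex.ofReal_mul, hc, ← Real.exp_add]
    norm_num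
    ring_nf
  have a1 : ‖(2 : ℂ) • w - compR R (level i) w - J (y ξ)‖ ≤ δ := by
    rw [two_sub_compR hm, ← hw₂, ← hJR, ← map_sub, LinearIsometryEquiv.norm_map, norm_sub_rev]
    exact h1
  have a2 : ‖J (compT R (level i) w) - (c : ℂ) • J (star y ξ)‖ ≤ c * δ := by
    rw [hcT, LinearIsometryEquiv.map_smulₛₗ, Complex.conj_ofReal, ← smul_sub, norm_smul,
      Complex.norm_real, Real.norm_eq_abs, abs_of_pos (Real.exp_pos _)]
    refine mul_le_mul_of_nonneg_left ?_ (Real.exp_pos _).le
    rw [← map_sub, LinearIsometryEquiv.norm_map, ← hm.J_J (opT R w₂), ← hm.J_J (star y ξ),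
      ← map_sub, LinearIsometryEquiv.norm_map, hm.J_T, norm_sub_rev]
    exact h2
  set u : AmbH H := lp.single 2 i ((2 : ℂ) • w - compR R (level i) w - J (y ξ)) -
    lp.single 2 (flipIdx i) (J (compT R (level i) w) - (c : ℂ) • J (star y ξ)) with hu
  have e3 : lp.single 2 i w - ambP hm (lp.single 2 i w) =
      (1 / 2 : ℂ) • (z (put0 ξ) - star z (put0 ξ)) + (1 / 2 : ℂ) • u := by
    rw [ambP_single, e1, e2, hu]
    simp only [lp.single_sub, lp.single_smul]
    module
  have h4 := re_inner_skew (η := put0 ξ) hzm hh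
  rw [e3, inner_add_left, Complex.add_re, inner_smul_left, inner_smul_left]
  have hhalf : conj (1 / 2 : ℂ) = ((1 / 2 : ℝ) : ℂ) := by simp [Complex.conj_ofNat]
  rw [hhalf, Complex.re_ofReal_mul, Complex.re_ofReal_mul, h4, mul_zero, zero_add,
    Real.dist_eq, sub_zero, abs_mul]
  have h5 : ‖u‖ ≤ δ + c * δ := (norm_sub_le _ _).trans
    (add_le_add ((norm_singleC _ _).trans_le a1) ((norm_singleC _ _).trans_le a2))
  have h6 := (Complex.abs_re_le_norm _).trans ((norm_inner_le_norm u h).trans
    (mul_le_mul_of_nonneg_right h5 (norm_nonneg _)))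
  have h7 : δ * ((1 + c) * ‖h‖ + 1) = ε := div_mul_cancel₀ ε (by positivity)
  have h8 := abs_nonneg (⟪u, h⟫_ℂ).re
  rw [abs_of_pos (by norm_num : (0 : ℝ) < 1 / 2)]
  nlinarith

theorem pK_amb (hd : StdData M ξ R J U) (f : AmbH H) :
    pK (amb M) (put0 ξ) f = ambP hd.mod f := by
  have hmem : ∀ f, ambP hd.mod f ∈ kS (amb M) (put0 ξ) := fun f =>
    mem_of_single {f | ambP hd.mod f ∈ kS (amb M) (put0 ξ)}
      ((isClosed_kS (amb M) (put0 ξ)).preimage (continuous_ambP _))
      (by simp [ambP])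
      (fun u hu v hv => by
        simp only [Set.mem_ofPred_eq] at hu hv ⊢
        rw [ambP_add]; exact add_mem hu hv) (ambP_mem_single hd) f
  have horth : ∀ h ∈ kS (amb M) (put0 ξ), ∀ f, (⟪f - ambP hd.mod f, h⟫_ℂ).re = 0 :=
    fun h hh f => mem_of_single {f | (⟪f - ambP hd.mod f, h⟫_ℂ).re = 0}
      (isClosed_eq (Complex.continuous_re.comp
        ((continuous_id.sub (continuous_ambP _)).inner continuous_const)) continuous_const)
      (by simp [ambP])
      (fun u hu v hv => by
        simp only [Set.mem_ofPred_eq] at hu hv ⊢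
        rw [ambP_add, add_sub_add_comm, inner_add_left, Complex.add_re, hu, hv, add_zero])
      (fun i w => re_inner_ambP_single hd i w hh) f
  have hw := sub_mem (pK_mem (amb M) (put0 ξ) f) (hmem f)
  have a := horth _ hw f
  have b := pK_orth (amb M) (put0 ξ) f hw
  have e : (⟪pK (amb M) (put0 ξ) f - ambP hd.mod f,
      pK (amb M) (put0 ξ) f - ambP hd.mod f⟫_ℂ).re = 0 := by
    rw [show pK (amb M) (put0 ξ) f - ambP hd.mod f =
      (f - ambP hd.mod f) - (f - pK (amb M) (put0 ξ) f) by abel, inner_sub_left, Complex.sub_re]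
    rw [show (f - ambP hd.mod f) - (f - pK (amb M) (put0 ξ) f) =
      pK (amb M) (put0 ξ) f - ambP hd.mod f by abel, a, b, sub_zero]
  rw [inner_self_eq_norm_sq_to_K] at e
  refine sub_eq_zero.1 (norm_eq_zero.1 ?_)
  simpa [← Complex.ofReal_pow] using e

theorem qK_amb (hd : StdData M ξ R J U) (f : AmbH H) :
    qK (amb M) (put0 ξ) f =
      (1 / 2 : ℂ) • (ambR hd.mod f - ambJ J hd.mod.J_J (ambT hd.mod f)) := by
  rw [qK, pK_amb hd, ambP]
  simp only [map_smul, LinearIsometryEquiv.map_smulₛₗ, map_neg, Complex.conj_I, smul_add,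
    smul_smul, sub_eq_add_neg]
  match_scalars <;> first
    | linear_combination (-(1 / 2) : ℂ) * Complex.I_mul_I
    | linear_combination (1 / 2 : ℂ) * Complex.I_mul_I

theorem opR_amb (hd : StdData M ξ R J U) : opR (amb M) (put0 ξ) = ambR hd.mod :=
  ContinuousLinearMap.ext fun f => by
    rw [opR_apply, pK_amb hd, qK_amb hd, ambP]
    module

theorem cfc_ambR_single (hd : StdData M ξ R J U) {f : ℝ → ℝ} (hf : Continuous f) (i : Idx)
    (v : H) : cfR f (opR (amb M) (put0 ξ)) (lp.single 2 i v : AmbH H) =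
      lp.single 2 i (cfc (fun r => f (gfn (level i) r)) R v) := by
  have hm := hd.mod
  have hg := continuous_gfn (level i)
  have hsp : spectrum ℝ (compR R (level i)) ⊆ Set.Icc 0 2 := by
    rw [compR, cfc_map_spectrum (gfn (level i)) R hm.R_sa hg.continuousOn]
    rintro _ ⟨r, hr, rfl⟩
    exact gfn_mem (hm.R_spec hr)
  have h := cfc_intertwine (R := compR R (level i)) (S := opR (amb M) (put0 ξ))
    (cfc_predicate _ _) (opR_selfAdjoint _ _) hsp (opR_spec _ _) (singleC i)
    (fun v => by rw [opR_amb hd]; exact compOp_single _ _ _ _ _) hf v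
  rw [singleC_apply, singleC_apply, compR,
    ← cfc_comp' f (gfn (level i)) R hf.continuousOn hg.continuousOn hm.R_sa] at h
  exact h

theorem opT_amb (hd : StdData M ξ R J U) : opT (opR (amb M) (put0 ξ)) = ambT hd.mod :=
  clm_ext_single fun i v => by
    rw [opT_eq_cfR, cfc_ambR_single hd continuous_fT, ambT, compOp_single, compT]

theorem ambU_T (hd : StdData M ξ R J U) (t : ℝ) :
    ambU U t * ambT hd.mod = gK (amb M) (put0 ξ) t := by
  have hm := hd.mod
  refine clm_ext_single fun i v => ?_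
  set l := level i with hl
  set k := cfc (kfn l) R with hk
  have hu : U t (opT R (k v)) = cfc (gC t) R (k v) + Complex.I • cfc (gS t) R (k v) := by
    rw [← mul_apply_eq_comp, hm.U_T, cfc_fU_eq hm.R_sa, add_apply, smul_apply]
  have hcong : ∀ (f F : ℝ → ℝ) (a b : ℝ), (∀ r ∈ Set.Icc (0 : ℝ) 2, f (gfn l r) =
      Real.exp (l / 2) * (kfn l r * F r)) → (∀ r, F r = a * gC t r + b * gS t r) →
      cfc (fun r => f (gfn l r)) R v = (Real.exp (l / 2) : ℂ) •
        ((a : ℂ) • cfc (gC t) R (k v) + (b : ℂ) • cfc (gS t) R (k v)) := by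
    intro f F a b hf hF
    have hc := continuous_gC t
    have hs := continuous_gS t
    have ca : Continuous fun r => a * gC t r := continuous_const.mul hc
    have cb : Continuous fun r => b * gS t r := continuous_const.mul hs
    have e : cfc (fun r => f (gfn l r)) R =
        cfc (fun r => Real.exp (l / 2) * ((a * gC t r + b * gS t r) * kfn l r)) R :=
      cfc_congr fun r hr => by rw [hf r (hm.R_spec hr), hF, mul_comm (kfn l r)]
    rw [e, cfc_const_mul _ (fun r => (a * gC t r + b * gS t r) * kfn l r) R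
        ((ca.fun_add cb).mul (continuous_kfn l)).continuousOn,
      cfc_mul (fun r => a * gC t r + b * gS t r) (kfn l) R (ca.fun_add cb).continuousOn
        (continuous_kfn l).continuousOn,
      cfc_add R (fun r => a * gC t r) (fun r => b * gS t r) ca.continuousOn cb.continuousOn,
      cfc_const_mul a _ R hc.continuousOn, cfc_const_mul b _ R hs.continuousOn, smul_apply,
      mul_apply_eq_comp, add_apply, smul_apply, smul_apply, ← hk]
    simp only [← Complex.coe_smul]
  rw [mul_apply_eq_comp, ambT, compOp_single, ambU_single, compT_eq hm, map_smul, hu, gK,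
    add_apply, smul_apply, fR_eq_cfR, fR_eq_cfR, cfc_ambR_single hd (continuous_gC t),
    cfc_ambR_single hd (continuous_gS t),
    hcong (gC t) (fun r => Real.cos (t * l) * gC t r - Real.sin (t * l) * gS t r)
      (Real.cos (t * l)) (-Real.sin (t * l)) (fun r hr => gC_gfn t hr) (fun r => by ring),
    hcong (gS t) (fun r => Real.sin (t * l) * gC t r + Real.cos (t * l) * gS t r)
      (Real.sin (t * l)) (Real.cos (t * l)) (fun r hr => gS_gfn t hr) (fun r => rfl),
    ← lp.single_smul, ← lp.single_add, Complex.exp_mul_I, ← Complex.ofReal_cos,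
    ← Complex.ofReal_sin]
  congr 1
  simp only [← hl, Complex.ofReal_neg]
  match_scalars <;> first
    | linear_combination (Complex.sin (t * l) * Complex.exp (l / 2)) * Complex.I_mul_I
    | ring

theorem data : ∀ (H : Type) [NormedAddCommGroup H] [InnerProductSpace ℂ H] [CompleteSpace H]
    (M : VonNeumannAlgebra H) (ξ : H) (R : H →L[ℂ] H) (J : H ≃ₗᵢ⋆[ℂ] H) (U : ℝ → H →L[ℂ] H),
    StdData M ξ R J U →
      ∃ (R₂ : AmbH H →L[ℂ] AmbH H) (J₂ : AmbH H ≃ₗᵢ⋆[ℂ] AmbH H),
        StdData (amb M) (put0 ξ) R₂ J₂ (ambU U) ∧ ∀ f i, J₂ f i = J (f (flipIdx i)) := by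
  intro H _ _ _ M ξ R J U hd
  have h := cycSep_amb hd.std
  have hn : ‖put0 ξ‖ = 1 := (norm_put0 ξ).trans hd.std.1
  have hT : tK (amb M) (put0 ξ) = ambT hd.mod := by rw [tK, opT_amb hd]
  have hJ : ∀ f, h.modJ f = ambJ J hd.mod.J_J f := fun f =>
    congrFun (h.tK_dense.equalizer h.modJ.continuous (ambJ J hd.mod.J_J).continuous
      (funext fun w => by
        show jMap (amb M) (put0 ξ) (tK (amb M) (put0 ξ) w) =
          ambJ J hd.mod.J_J (tK (amb M) (put0 ξ) w)
        rw [h.jMap_T, opD_apply, pK_amb hd, qK_amb hd, ambP, hT]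
        module)) f
  have hU : modU (amb M) (put0 ξ) = ambU U := funext fun t => h.ext_T fun v => by
    rw [h.modU_T, ← ambU_T hd t, hT]
    rfl
  refine ⟨opR (amb M) (put0 ξ), h.modJ, ⟨⟨hn, h.cyclic, h.separating⟩, hU ▸ h.modular hn,
    fun w ε hε => h.graph_dense w hε⟩, fun f i => ?_⟩
  rw [hJ]
  rfl

end Vale.Agent.P096.Three.Amb
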