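import Vale.Agent.P096.Three.Amb.Basic
import Vale.Agent.P096.Three.Amb.Data

/-! P096, stabilisation: the specification of the stabilised algebra. -/

namespace Vale.Agent.P096.Three

/-- AMB holds. -/
theorem ambSpec : AmbSpec :=
  ⟨Amb.separable, Amb.close, Amb.ten_mem, Amb.centre, Amb.commute_sites, Amb.data⟩

end Vale.Agent.P096.Three
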