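import Vale.Agent.P096.Three.Core.Shift

/-!
P096, all algebras: the flow of a stabilisation normalises it when the flow of the algebra does.
-/

namespace Vale.Agent.P096.Three.Amb

variable {H : Type} [NormedAddCommGroup H] [InnerProductSpace ℂ H] [CompleteSpace H]

theorem rsite_add (n : ℕ) (a b : Matrix (Fin 2) (Fin 2) ℂ) :
    rsite (H := H) n (a + b) = rsite n a + rsite n b := by
  have e : Cent.rightMat (a + b) = Cent.rightMat a + Cent.rightMat b := by
    ext i j
    fin_cases i <;> fin_cases j <;> simp [Cent.rightMat]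
  simp only [Cent.rightSite, e, mul_add, add_mul, Cent.siteOp_add]

theorem rsite_smul (n : ℕ) (c : ℂ) (a : Matrix (Fin 2) (Fin 2) ℂ) :
    rsite (H := H) n (c • a) = c • rsite n a := by
  have e : Cent.rightMat (c • a) = c • Cent.rightMat a := by
    ext i j
    fin_cases i <;> fin_cases j <;> simp [Cent.rightMat]
  simp only [Cent.rightSite, e, Matrix.mul_smul, Matrix.smul_mul, Cent.siteOp_smul]

theorem ambU_rsite (U : ℝ → H →L[ℂ] H) (t : ℝ) (n : ℕ) (a b : Fin 2) :
    ambU U t * rsite n (Matrix.single a b (1 : ℂ)) =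
      Complex.exp (((t * Core.unitLevel n b a : ℝ) : ℂ) * Complex.I) •
        (rsite n (Matrix.single a b (1 : ℂ)) * ambU U t) := by
  refine ambU_siteOp (fun j k h => ?_) U t
  fin_cases a <;> fin_cases b <;> fin_cases j <;> fin_cases k <;>
    simp [Core.unitLevel, siteLevel, Cent.siteBasis, Cent.rightMat, Matrix.mul_apply,
      Fin.sum_univ_four] at h ⊢

/-- The flow of the stabilisation normalises it. -/
theorem ambU_conj_mem {N : VonNeumannAlgebra H} {U : ℝ → H →L[ℂ] H}
    (hst : ∀ t, star (U t) = U (-t)) (hadd : ∀ s t, U (s + t) = U s * U t) (h0 : U 0 = 1)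
    (hN : ∀ t, ∀ x ∈ N, U t * x * U (-t) ∈ N) (t : ℝ) {x : AmbH H →L[ℂ] AmbH H}
    (hx : x ∈ amb N) : ambU U t * x * ambU U (-t) ∈ amb N := by
  obtain ⟨h1, h2⟩ := (mem_amb N x).1 hx
  have i1 : ∀ s, ambU U (-s) * ambU U s = 1 := fun s => by
    rw [← ambU_add hadd, neg_add_cancel, ambU_zero h0]
  have i2 : ∀ s, ambU U s * ambU U (-s) = 1 := fun s => by
    rw [← ambU_add hadd, add_neg_cancel, ambU_zero h0]
  have key : ∀ X : AmbH H →L[ℂ] AmbH H, x * (ambU U (-t) * X * ambU U t) =
      ambU U (-t) * X * ambU U t * x →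
      ambU U t * x * ambU U (-t) * X = X * (ambU U t * x * ambU U (-t)) := fun X h => by
    have e := congrArg (fun T => ambU U t * T * ambU U (-t)) h
    simp only [← mul_assoc, i2, one_mul] at e
    simp only [mul_assoc, i2, mul_one] at e ⊢
    exact e
  refine (mem_amb N _).2 ⟨fun y hy => key _ ?_, fun n b => ?_⟩
  · have e : ambU U (-t) * ten y * ambU U t = ten (U (-t) * y * U t) := by
      refine ContinuousLinearMap.ext fun f => lp.ext (funext fun i => ?_)
      simp only [mul_apply_eq_comp, ambU_apply, Cent.ten_apply, map_smul, smul_smul,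
        ← Complex.exp_add]
      rw [show ((((-t) * level i : ℝ) : ℂ) * Complex.I + ((t * level i : ℝ) : ℂ) * Complex.I) = 0 by
        push_cast; ring, Complex.exp_zero, one_smul]
    rw [e]
    refine h1 _ (VonNeumannAlgebra.mem_commutant_iff.2 fun z hz => ?_)
    have hc := VonNeumannAlgebra.mem_commutant_iff.1 hy _ (hN t z hz)
    have u1 : U (-t) * U t = 1 := by rw [← hadd, neg_add_cancel, h0]
    have e2 := congrArg (fun T => U (-t) * T * U t) hc
    simp only [← mul_assoc, u1, one_mul] at e2
    simp only [mul_assoc, u1, mul_one] at e2 ⊢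
    exact e2
  · refine key _ ?_
    have hu : ∀ a c, x * (ambU U (-t) * rsite n (Matrix.single a c (1 : ℂ)) * ambU U t) =
        ambU U (-t) * rsite n (Matrix.single a c (1 : ℂ)) * ambU U t * x := fun a c => by
      rw [ambU_rsite U (-t) n a c]
      simp only [smul_mul_assoc, mul_smul_comm, mul_assoc, i1, mul_one]
      rw [h2]
    have e : b = b 0 0 • Matrix.single 0 0 (1 : ℂ) + b 0 1 • Matrix.single 0 1 (1 : ℂ) +
        (b 1 0 • Matrix.single 1 0 (1 : ℂ) + b 1 1 • Matrix.single 1 1 (1 : ℂ)) := by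
      ext i j
      fin_cases i <;> fin_cases j <;> simp
    rw [e]
    simp only [rsite_add, rsite_smul, mul_add, add_mul, mul_smul_comm, smul_mul_assoc, hu]

end Vale.Agent.P096.Three.Amb
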