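import Vale.Agent.P096.Three.Index

/-!
P096, stabilisation: elements of the algebra and of the commutant of the sites that send the
vector of the sites to each basis state, with their adjoints.
-/

open scoped InnerProductSpace Matrix
open Filter Topology

namespace Vale.Agent.P096.Three.Amb

open Cent

variable {H : Type} [NormedAddCommGroup H] [InnerProductSpace ℂ H] [CompleteSpace H]

theorem siteW_sq (n : ℕ) : siteW n 0 ^ 2 + siteW n 1 ^ 2 = 1 := famW_sq _

theorem siteW_pos (n : ℕ) (a : Fin 2) : 0 < siteW n a := famW_pos _ a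

/-- A left matrix sending the vector of a site to the state `k`. -/
noncomputable def leftCoef (w : Fin 2 → ℝ) : Fin 4 → Matrix (Fin 2) (Fin 2) ℂ :=
  ![1, !![0, ((w 1)⁻¹ : ℝ); 0, 0], !![0, 0; ((w 0)⁻¹ : ℝ), 0],
    !![((w 1 / w 0 : ℝ) : ℂ), 0; 0, ((-(w 0 / w 1) : ℝ) : ℂ)]]

/-- A right matrix sending the vector of a site to the state `k`. -/
noncomputable def rightCoef (w : Fin 2 → ℝ) : Fin 4 → Matrix (Fin 2) (Fin 2) ℂ :=
  ![1, !![0, 0; ((w 0)⁻¹ : ℝ), 0], !![0, ((w 1)⁻¹ : ℝ); 0, 0],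
    !![((w 1 / w 0 : ℝ) : ℂ), 0; 0, ((-(w 0 / w 1) : ℝ) : ℂ)]]

/-- The factor of the adjoint. -/
noncomputable def coefFac (w : Fin 2 → ℝ) : Fin 4 → ℝ := ![1, w 0 / w 1, w 1 / w 0, 1]

theorem leftCoef_col {w : Fin 2 → ℝ} (hw : w 0 ^ 2 + w 1 ^ 2 = 1) (h0 : 0 < w 0) (h1 : 0 < w 1)
    (k l : Fin 4) : (siteBasis w * leftMat (leftCoef w k) * siteBasis w) l 0 =
      if l = k then 1 else 0 := by
  have h : (w 0 : ℂ) ^ 2 + (w 1 : ℂ) ^ 2 = 1 := by exact_mod_cast hw
  have h0' : (w 0 : ℂ) ≠ 0 := by exact_mod_cast h0.ne'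
  have h1' : (w 1 : ℂ) ≠ 0 := by exact_mod_cast h1.ne'
  fin_cases k <;> fin_cases l <;>
    simp [leftCoef, leftMat, siteBasis, Matrix.mul_apply, Fin.sum_univ_four] <;>
    field_simp <;> first | linear_combination h | ring

theorem leftCoef_star_col {w : Fin 2 → ℝ} (hw : w 0 ^ 2 + w 1 ^ 2 = 1) (h0 : 0 < w 0)
    (h1 : 0 < w 1) (k l : Fin 4) :
    (siteBasis w * leftMat (leftCoef w k)ᴴ * siteBasis w) l 0 =
      if l = flipState k then (coefFac w k : ℂ) else 0 := by
  have h : (w 0 : ℂ) ^ 2 + (w 1 : ℂ) ^ 2 = 1 := by exact_mod_cast hw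
  have h0' : (w 0 : ℂ) ≠ 0 := by exact_mod_cast h0.ne'
  have h1' : (w 1 : ℂ) ≠ 0 := by exact_mod_cast h1.ne'
  fin_cases k <;> fin_cases l <;>
    simp [leftCoef, coefFac, flipState, Equiv.swap_apply_def, leftMat, siteBasis,
      Matrix.mul_apply, Fin.sum_univ_four, Matrix.conjTranspose_apply] <;>
    field_simp <;> first | linear_combination h | ring

theorem rightCoef_col {w : Fin 2 → ℝ} (hw : w 0 ^ 2 + w 1 ^ 2 = 1) (h0 : 0 < w 0) (h1 : 0 < w 1)
    (k l : Fin 4) : (siteBasis w * rightMat (rightCoef w k) * siteBasis w) l 0 =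
      if l = k then 1 else 0 := by
  have h : (w 0 : ℂ) ^ 2 + (w 1 : ℂ) ^ 2 = 1 := by exact_mod_cast hw
  have h0' : (w 0 : ℂ) ≠ 0 := by exact_mod_cast h0.ne'
  have h1' : (w 1 : ℂ) ≠ 0 := by exact_mod_cast h1.ne'
  fin_cases k <;> fin_cases l <;>
    simp [rightCoef, rightMat, siteBasis, Matrix.mul_apply, Fin.sum_univ_four] <;>
    field_simp <;> first | linear_combination h | ring

theorem rightCoef_star_col {w : Fin 2 → ℝ} (hw : w 0 ^ 2 + w 1 ^ 2 = 1) (h0 : 0 < w 0)
    (h1 : 0 < w 1) (k l : Fin 4) :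
    (siteBasis w * rightMat (rightCoef w k)ᴴ * siteBasis w) l 0 =
      if l = flipState k then (((coefFac w k)⁻¹ : ℝ) : ℂ) else 0 := by
  have h : (w 0 : ℂ) ^ 2 + (w 1 : ℂ) ^ 2 = 1 := by exact_mod_cast hw
  have h0' : (w 0 : ℂ) ≠ 0 := by exact_mod_cast h0.ne'
  have h1' : (w 1 : ℂ) ≠ 0 := by exact_mod_cast h1.ne'
  fin_cases k <;> fin_cases l <;>
    simp [rightCoef, coefFac, flipState, Equiv.swap_apply_def, rightMat, siteBasis,
      Matrix.mul_apply, Fin.sum_univ_four, Matrix.conjTranspose_apply] <;>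
    field_simp <;> first | linear_combination h | ring

theorem exp_siteLevel (n : ℕ) (k : Fin 4) :
    Real.exp (siteLevel n k / 2) = coefFac (siteW n) k := by
  have h0 := siteW_pos n 0
  have h1 := siteW_pos n 1
  fin_cases k <;> simp [siteLevel, siteGap, coefFac, Real.exp_neg, neg_div,
    Real.exp_log (div_pos h0 h1)]

/-- A site matrix on a vector at rest at that site. -/
theorem siteOp_single_col (n : ℕ) (A : Matrix (Fin 4) (Fin 4) ℂ) {i : Idx} (hi : i n = 0)
    {k : Fin 4} {c : ℂ} (hA : ∀ l, A l 0 = if l = k then c else 0) (v : H) :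
    siteOp n A (lp.single 2 i v) = c • lp.single 2 (i.update n k) v := by
  rw [siteOp_single, hi, Finset.sum_eq_single k]
  · rw [hA, if_pos rfl]
  · intro l _ hl
    rw [hA, if_neg hl, zero_smul]
  · exact fun h => absurd (Finset.mem_univ k) h

theorem update_eq_add {j : Idx} {n : ℕ} (hn : j n = 0) (k : Fin 4) :
    j.update n k = Finsupp.single n k + j := by
  refine Finsupp.ext fun m => ?_
  rcases eq_or_ne m n with rfl | h <;> simp [Finsupp.update_apply, *]

theorem flipIdx_apply (i : Idx) (n : ℕ) : flipIdx i n = flipState (i n) := rfl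

theorem flipIdx_flipIdx (i : Idx) : flipIdx (flipIdx i) = i :=
  Finsupp.ext fun _ => Equiv.swap_apply_self _ _ _

theorem flipState_zero : flipState 0 = 0 := by decide

theorem flipIdx_zero : flipIdx 0 = 0 :=
  Finsupp.ext fun _ => show flipState 0 = 0 by decide

theorem level_zero : level 0 = 0 := by simp [level]

theorem level_add {j : Idx} {n : ℕ} (hn : j n = 0) {k : Fin 4} (hk : k ≠ 0) :
    level (Finsupp.single n k + j) = siteLevel n k + level j := by
  have hnj : n ∉ j.support := by simpa using hn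
  have hs : (Finsupp.single n k + j).support = insert n j.support := by
    refine Finset.ext fun m => ?_
    rcases eq_or_ne m n with rfl | h <;> simp [*]
  rw [level, hs, Finset.sum_insert hnj]
  congr 1
  · simp [hn]
  · refine Finset.sum_congr rfl fun m hm => ?_
    have : m ≠ n := fun e => hnj (e ▸ hm)
    simp [this]

/-- A unit of the state `i` inside the set `S`, with factor `c` at the adjoint. -/
def IsUnitAt (S : Set (AmbH H →L[ℂ] AmbH H)) (c : ℝ) (i : Idx) (X : AmbH H →L[ℂ] AmbH H) :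
    Prop :=
  X ∈ S ∧ (∀ n, i n = 0 → ∀ A, Commute (siteOp n A) X) ∧ (∀ x : H →L[ℂ] H, Commute (ten x) X) ∧
    ∀ v : H, X (put0 v) = lp.single 2 i v ∧ star X (put0 v) = (c : ℂ) • lp.single 2 (flipIdx i) v

/-- Units of all states from units at single sites. -/
theorem exists_unitAt (S : VonNeumannAlgebra (AmbH H)) (side : ℕ → Fin 4 → Matrix (Fin 4) (Fin 4) ℂ)
    (fac : ℕ → Fin 4 → ℝ) (F : Idx → ℝ) (hmem : ∀ n k, siteOp n (side n k) ∈ S)
    (hcol : ∀ n k l, side n k l 0 = if l = k then 1 else 0)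
    (hstar : ∀ n k l, (side n k)ᴴ l 0 = if l = flipState k then (fac n k : ℂ) else 0)
    (hF0 : F 0 = 1)
    (hF : ∀ (j : Idx) n k, j n = 0 → k ≠ 0 → F (Finsupp.single n k + j) = fac n k * F j)
    (i : Idx) : ∃ X, IsUnitAt (S : Set (AmbH H →L[ℂ] AmbH H)) (F i) i X := by
  induction i using Finsupp.induction with
  | zero =>
    exact ⟨1, one_mem S, fun n _ A => Commute.one_right _, fun x => Commute.one_right _,
      fun v => by simp [hF0, flipIdx_zero, put0_apply]⟩
  | single_add n k j hn hk ih =>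
    obtain ⟨X, hXS, hXc, hXt, hXv⟩ := ih
    have hjn : j n = 0 := by simpa using hn
    refine ⟨siteOp n (side n k) * X, mul_mem (hmem n k) hXS, fun m hm A => ?_, fun x => ?_,
      fun v => ⟨?_, ?_⟩⟩
    · have hmn : m ≠ n := fun e => by
        subst e
        simp [hjn, hk] at hm
      have hjm : j m = 0 := by simpa [hmn] using hm
      exact (siteOp_comm hmn A (side n k)).mul_right (hXc m hjm A)
    · exact (ten_siteOp x n (side n k)).mul_right (hXt x)
    · rw [mul_apply_eq_comp, (hXv v).1, siteOp_single_col n _ hjn (hcol n k) v, one_smul,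
        update_eq_add hjn]
    · rw [(hXc n hjn (side n k)).eq, star_mul, mul_apply_eq_comp, (hXv v).2, star_siteOp,
        map_smul, siteOp_single_col n _
          (by simp [flipIdx_apply, hjn, flipState_zero]) (hstar n k) v, smul_smul,
        update_eq_add (by simp [flipIdx_apply, hjn, flipState_zero]), hF j n k hjn hk]
      have e : flipIdx (Finsupp.single n k + j) = Finsupp.single n (flipState k) + flipIdx j := by
        refine Finsupp.ext fun m => ?_
        rcases eq_or_ne m n with rfl | h <;> simp [flipIdx_apply, flipState_zero, *]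
      rw [e, mul_comm (fac n k), Complex.ofReal_mul]

theorem exp_level_step (c : ℝ) (j : Idx) (n : ℕ) (k : Fin 4) (hj : j n = 0) (hk : k ≠ 0) :
    Real.exp (c * level (Finsupp.single n k + j)) =
      Real.exp (c * siteLevel n k) * Real.exp (c * level j) := by
  rw [level_add hj hk, mul_add, Real.exp_add]

theorem lsite_mem (M : VonNeumannAlgebra H) (n : ℕ) (a : Matrix (Fin 2) (Fin 2) ℂ) :
    lsite n a ∈ amb M := by
  refine (StarSubalgebra.mem_centralizer_iff (R := ℂ)).2 ?_
  rintro g (⟨y, -, rfl⟩ | ⟨⟨m, b⟩, rfl⟩)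
  · refine ⟨(ten_siteOp y n _).eq, ?_⟩
    rw [star_ten]
    exact (ten_siteOp _ n _).eq
  · refine ⟨(leftSite_rightSite (w := siteW) siteW_sq n m a b).symm.eq, ?_⟩
    rw [star_rightSite]
    exact (leftSite_rightSite (w := siteW) siteW_sq n m a bᴴ).symm.eq

theorem ten_mem_amb {M : VonNeumannAlgebra H} {x : H →L[ℂ] H} (hx : x ∈ M) :
    ten x ∈ amb M := by
  refine (StarSubalgebra.mem_centralizer_iff (R := ℂ)).2 ?_
  rintro g (⟨y, hy, rfl⟩ | ⟨⟨m, b⟩, rfl⟩)
  · have h : ∀ y ∈ M.commutant, ten y * ten x = ten x * ten y := fun y hy => by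
      rw [ten_mul, ten_mul, VonNeumannAlgebra.mem_commutant_iff.1 hy x hx]
    refine ⟨h y hy, ?_⟩
    rw [star_ten]
    exact h _ (star_mem hy)
  · refine ⟨(ten_siteOp x m _).eq.symm, ?_⟩
    rw [star_rightSite]
    exact (ten_siteOp x m _).eq.symm

theorem gen_mem_commutant (M : VonNeumannAlgebra H) {g : AmbH H →L[ℂ] AmbH H}
    (hg : g ∈ ten '' (M.commutant : Set (H →L[ℂ] H)) ∪
      Set.range fun p : ℕ × Matrix (Fin 2) (Fin 2) ℂ => rightSite (siteW p.1) p.1 p.2) :
    g ∈ (amb M).commutant :=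
  VonNeumannAlgebra.mem_commutant_iff.2 fun _ hz =>
    (((StarSubalgebra.mem_centralizer_iff (R := ℂ)).1 hz) g hg).1.symm

theorem rsite_mem (M : VonNeumannAlgebra H) (n : ℕ) (a : Matrix (Fin 2) (Fin 2) ℂ) :
    rsite n a ∈ (amb M).commutant :=
  gen_mem_commutant M (Or.inr ⟨(n, a), rfl⟩)

theorem ten_mem_commutant (M : VonNeumannAlgebra H) {y : H →L[ℂ] H} (hy : y ∈ M.commutant) :
    ten y ∈ (amb M).commutant :=
  gen_mem_commutant M (Or.inl ⟨y, hy, rfl⟩)

theorem exists_leftUnit (M : VonNeumannAlgebra H) (i : Idx) :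
    ∃ X, IsUnitAt (amb M : Set (AmbH H →L[ℂ] AmbH H)) (Real.exp (level i / 2)) i X := by
  refine exists_unitAt (amb M)
    (fun n k => siteBasis (siteW n) * leftMat (leftCoef (siteW n) k) * siteBasis (siteW n))
    (fun n k => coefFac (siteW n) k) (fun i => Real.exp (level i / 2))
    (fun n k => lsite_mem M n _)
    (fun n k l => leftCoef_col (siteW_sq n) (siteW_pos n 0) (siteW_pos n 1) k l)
    (fun n k l => ?_) (by simp [level_zero]) (fun j n k hj hk => ?_) i
  · rw [Matrix.conjTranspose_mul, Matrix.conjTranspose_mul, siteBasis_star, leftMat_star,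
      ← Matrix.mul_assoc]
    exact leftCoef_star_col (siteW_sq n) (siteW_pos n 0) (siteW_pos n 1) k l
  · simp only [level_add hj hk, add_div, Real.exp_add, exp_siteLevel]

theorem exists_rightUnit (M : VonNeumannAlgebra H) (i : Idx) :
    ∃ X, IsUnitAt ((amb M).commutant : Set (AmbH H →L[ℂ] AmbH H))
      (Real.exp (-(level i / 2))) i X := by
  refine exists_unitAt (amb M).commutant
    (fun n k => siteBasis (siteW n) * rightMat (rightCoef (siteW n) k) * siteBasis (siteW n))
    (fun n k => (coefFac (siteW n) k)⁻¹) (fun i => Real.exp (-(level i / 2)))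
    (fun n k => rsite_mem M n _)
    (fun n k l => rightCoef_col (siteW_sq n) (siteW_pos n 0) (siteW_pos n 1) k l)
    (fun n k l => ?_) (by simp [level_zero]) (fun j n k hj hk => ?_) i
  · rw [Matrix.conjTranspose_mul, Matrix.conjTranspose_mul, siteBasis_star, rightMat_star,
      ← Matrix.mul_assoc]
    exact rightCoef_star_col (siteW_sq n) (siteW_pos n 0) (siteW_pos n 1) k l
  · simp only [level_add hj hk, add_div, neg_add, Real.exp_add, ← exp_siteLevel, Real.exp_neg]

end Vale.Agent.P096.Three.Amb
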